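import Vale.Agent.P122.C.Defs2

/-! # P106 / AN / Base : analysis layer for the radially truncated cone in `ℝ^(3+1)`, part without nodes (helper577)

4-dimensional copy of `P122/AN/Defs` (helper466).

Coordinates: physical `z = (x'₀, x'₁, t, u)`, frequency `ξ = (ξ'₀, ξ'₁, τ, ρ)`; cone `τ = |ξ'|² / (2ρ)`, slope `s = -ξ'/ρ`:
`ξ = ρ (-s, |s|²/2, 1)`, phase `ρ (u - x'·s + t |s|²/2)`.  Light ray of slope `s`: `dv s z = x' - t s` and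
`nl s z = u - x'·s + t |s|²/2` are constant.  Radial truncation: `|ρ - ρ₀| ≤ 2^(-κ)`, so all planks have the width `2^κ` in `nl`.
Plank of level `i`, cap `τ` (slope cell of side `2^(-i n)`): `2^(i n) × 2^(i n) × 2^(2 i n) × 2^κ` in `(dv, t, nl)`. -/

open MeasureTheory Complex Set
open Vale.Agent.P122.C2 (Z2 fw fn par kids Cap)
open scoped ENNReal NNReal FourierTransform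

set_option linter.all false

namespace Vale.Agent.P106.AN

/-- physical space `(x'₀, x'₁, t, u)` and frequency space `(ξ'₀, ξ'₁, τ, ρ)` -/
abbrev E4 := EuclideanSpace ℝ (Fin 4)

/-- horizontal displacement from the light ray of slope `s` through `0` -/
noncomputable def dv (s : Fin 2 → ℝ) (z : E4) : Fin 2 → ℝ := ![z 0 - s 0 * z 2, z 1 - s 1 * z 2]

/-- null coordinate of slope `s` -/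
noncomputable def nl (s : Fin 2 → ℝ) (z : E4) : ℝ := z 3 - (s 0 * z 0 + s 1 * z 1) + (s 0 ^ 2 + s 1 ^ 2) / 2 * z 2

/-- gauge of the box of widths `ρ0` (null direction), `ρ1` (direction `θ`), `ρ2` (normal direction), length `ρ3`, slope `s` -/
noncomputable def gau (θ ρ0 ρ1 ρ2 ρ3 : ℝ) (s : Fin 2 → ℝ) (z : E4) : ℝ :=
  |nl s z| / ρ0 + |fw θ (dv s z)| / ρ1 + |fn θ (dv s z)| / ρ2 + |z 2| / ρ3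

/-- weight of the box -/
noncomputable def wg (M : ℕ) (θ ρ0 ρ1 ρ2 ρ3 : ℝ) (s : Fin 2 → ℝ) (z : E4) : ℝ≥0∞ :=
  ENNReal.ofReal (((1 + gau θ ρ0 ρ1 ρ2 ρ3 s z) ^ M)⁻¹)

/-- `ξ` is in the `c`-fold dual box: `ξ·z = ρ nl + (ξ' + ρ s)·dv + (τ + ξ'·s + ρ |s|²/2) t` -/
def Dual (c θ ρ0 ρ1 ρ2 ρ3 : ℝ) (s : Fin 2 → ℝ) (ξ : E4) : Prop :=
  |ξ 3| ≤ c / ρ0 ∧ |fw θ (![ξ 0 + ξ 3 * s 0, ξ 1 + ξ 3 * s 1])| ≤ c / ρ1 ∧ |fn θ (![ξ 0 + ξ 3 * s 0, ξ 1 + ξ 3 * s 1])| ≤ c / ρ2 ∧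
    |ξ 2 + s 0 * ξ 0 + s 1 * ξ 1 + ξ 3 * (s 0 ^ 2 + s 1 ^ 2) / 2| ≤ c / ρ3

/-! ## the two Fourier lemmas -/

/-- [REP] local constancy -/
def StREP : Prop := ∀ (M : ℕ) (c : ℝ), 0 < c → ∃ C : ℝ, 0 ≤ C ∧ ∀ (θ ρ0 ρ1 ρ2 ρ3 : ℝ) (s : Fin 2 → ℝ) (ξ0 : E4) (g : E4 → ℂ),
  0 < ρ0 → 0 < ρ1 → 0 < ρ2 → 0 < ρ3 → Integrable g → (∀ ξ, g ξ ≠ 0 → Dual c θ ρ0 ρ1 ρ2 ρ3 s (ξ - ξ0)) →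
    ∀ x, ‖𝓕⁻ g x‖ₑ ^ 2 ≤ ENNReal.ofReal (C * (ρ0 * ρ1 * ρ2 * ρ3)⁻¹) * ∫⁻ y, ‖𝓕⁻ g y‖ₑ ^ 2 * wg M θ ρ0 ρ1 ρ2 ρ3 s (x - y)

/-- [ORT] orthogonality up to overlaps, on a box -/
def StORT : Prop := ∀ (M : ℕ), ∃ C : ℝ, 0 ≤ C ∧ ∀ (ι : Type) (I : Finset ι) (g : ι → E4 → ℂ) (θ ρ0 ρ1 ρ2 ρ3 : ℝ)
    (s : Fin 2 → ℝ) (m : ℕ), 0 < ρ0 → 0 < ρ1 → 0 < ρ2 → 0 < ρ3 → (∀ k ∈ I, Integrable (g k)) →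
    (∀ k ∈ I, ∀ J ⊆ I, (∀ l ∈ J, ∃ ξ η, g k ξ ≠ 0 ∧ g l η ≠ 0 ∧ Dual 1 θ ρ0 ρ1 ρ2 ρ3 s (ξ - η)) → J.card ≤ m) →
    ∀ z0, ∫⁻ z, ‖∑ k ∈ I, 𝓕⁻ (g k) z‖ₑ ^ 2 * wg M θ ρ0 ρ1 ρ2 ρ3 s (z - z0) ≤
      ENNReal.ofReal (C * m) * ∑ k ∈ I, ∫⁻ z, ‖𝓕⁻ (g k) z‖ₑ ^ 2 * wg M θ ρ0 ρ1 ρ2 ρ3 s (z - z0)

/-! ## weights -/

/-- [WG] a box of slope `s'` contained in the `c`-fold box `(R0, R1, R2, R3, s)`, up to translation: comparison of the gauges.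
`nl s z - nl s' z = (s' - s)·dv s' z + |s' - s|²/2 z 2`. -/
def StWG : Prop := ∀ c : ℝ, 1 ≤ c → ∃ C : ℝ, 1 ≤ C ∧ ∀ (θ θ' ρ0 ρ1 ρ2 ρ3 R0 R1 R2 R3 : ℝ) (s s' : Fin 2 → ℝ),
  0 < ρ0 → 0 < ρ1 → 0 < ρ2 → 0 < ρ3 → (θ' = θ ∧ ρ1 ≤ R1 ∧ ρ2 ≤ R2 ∨ (ρ1 ≤ R1 ∧ ρ1 ≤ R2) ∧ ρ2 ≤ R1 ∧ ρ2 ≤ R2) → ρ3 ≤ R3 → ρ0 ≤ R0 →
  |fw θ (fun i => s i - s' i)| * ρ3 ≤ c * R1 → |fn θ (fun i => s i - s' i)| * ρ3 ≤ c * R2 →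
  |fw θ' (fun i => s i - s' i)| * ρ1 ≤ c * R0 → |fn θ' (fun i => s i - s' i)| * ρ2 ≤ c * R0 →
  ((s 0 - s' 0) ^ 2 + (s 1 - s' 1) ^ 2) * ρ3 ≤ c * R0 →
  ∀ z, gau θ R0 R1 R2 R3 s z ≤ C * gau θ' ρ0 ρ1 ρ2 ρ3 s' z

/-- the point at `x' = ρ o`, time `t`, null coordinate `ρ0 w` with respect to the slope `s` -/
noncomputable def pt (ρ0 ρ t : ℝ) (s : Fin 2 → ℝ) (o : Z2) (w : ℤ) : E4 :=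
  !₂[ρ * (o 0 : ℝ), ρ * (o 1 : ℝ), t, ρ0 * (w : ℝ) + (s 0 * (ρ * (o 0 : ℝ)) + s 1 * (ρ * (o 1 : ℝ))) - (s 0 ^ 2 + s 1 ^ 2) / 2 * t]

/-- [WS] sum over a set of parallel planks `ρ0 × ρ × ρ × ρ3` of slope `s'` whose centres lie in the `c`-fold box `(R0, R1, R2, ρ3, s)` -/
def StWS : Prop := ∀ (M : ℕ) (c : ℝ), 1 ≤ c → ∃ C : ℝ, 0 ≤ C ∧ ∀ (θ ρ0 ρ ρ3 R0 R1 R2 : ℝ) (s s' : Fin 2 → ℝ)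
    (U : Finset (Z2 × ℤ)) (t : ℝ) (p : E4), 0 < ρ0 → 0 < ρ → 0 < ρ3 → ρ0 ≤ R0 → ρ ≤ R1 → ρ ≤ R2 →
  |fw θ (fun i => s i - s' i)| * ρ3 ≤ c * R1 → |fn θ (fun i => s i - s' i)| * ρ3 ≤ c * R2 →
  |s 0 - s' 0| * ρ ≤ c * R0 → |s 1 - s' 1| * ρ ≤ c * R0 → ((s 0 - s' 0) ^ 2 + (s 1 - s' 1) ^ 2) * ρ3 ≤ c * R0 →
  (∀ q ∈ U, gau θ R0 R1 R2 ρ3 s (pt ρ0 ρ t s' q.1 q.2 - p) ≤ c) →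
  ∀ z, ∑ q ∈ U, wg (M + 4) 0 ρ0 ρ ρ ρ3 s' (z - pt ρ0 ρ t s' q.1 q.2) ≤ ENNReal.ofReal C * wg M θ R0 R1 R2 ρ3 s (z - p)

/-- [WI] integral of a weight -/
def StWI : Prop := ∃ C : ℝ, 0 ≤ C ∧ ∀ (M : ℕ) (θ ρ0 ρ1 ρ2 ρ3 : ℝ) (s : Fin 2 → ℝ) (z0 : E4), 5 ≤ M → 0 < ρ0 → 0 < ρ1 → 0 < ρ2 → 0 < ρ3 →
  ∫⁻ z, wg M θ ρ0 ρ1 ρ2 ρ3 s (z - z0) ≤ ENNReal.ofReal (C * (ρ0 * ρ1 * ρ2 * ρ3))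

/-! ## pieces of the truncated cone -/

/-- the pieces: `g θ` lives near the slope cell `θ` of side `2^(-K n)`, `ξ 3` in an interval of length `2^(-κ)` -/
structure Dat (C : ℝ) (κ K n : ℕ) (ρ : ℝ) (g : Z2 → E4 → ℂ) : Prop where
  rho : 1 ≤ ρ ∧ ρ ≤ C
  int : ∀ θ, Integrable (g θ)
  cell : ∀ θ ξ, g θ ξ ≠ 0 → ∀ k, 0 ≤ θ k ∧ θ k < 2 ^ (K * n)
  rad : ∀ θ ξ, g θ ξ ≠ 0 → 1 / 2 ≤ ξ 3 ∧ |ξ 3 - ρ| ≤ C / 2 ^ κ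
  slope0 : ∀ θ ξ, g θ ξ ≠ 0 → |ξ 0 / ξ 3 + θ 0 / 2 ^ (K * n)| ≤ C / 2 ^ (K * n)
  slope1 : ∀ θ ξ, g θ ξ ≠ 0 → |ξ 1 / ξ 3 + θ 1 / 2 ^ (K * n)| ≤ C / 2 ^ (K * n)
  near : ∀ θ ξ, g θ ξ ≠ 0 → |ξ 2 - (ξ 0 ^ 2 + ξ 1 ^ 2) / (2 * ξ 3)| ≤ C / 2 ^ (2 * K * n)

/-- slope of the cap `τ` of level `i` -/
noncomputable def slp (n i : ℕ) (τ : Z2) : Fin 2 → ℝ := fun k => (τ k : ℝ) / 2 ^ (i * n)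

/-- change of the null coordinate at `(x', t)` from the slope `s` to the slope `s'` -/
noncomputable def dnl (s s' x : Fin 2 → ℝ) (t : ℝ) : ℝ :=
  (s' 0 ^ 2 + s' 1 ^ 2 - s 0 ^ 2 - s 1 ^ 2) / 2 * t - (s' 0 - s 0) * x 0 - (s' 1 - s 1) * x 1

/-- the cells of level `K` in the cap `τ` of level `i` -/
noncomputable def desc (K n i : ℕ) (τ : Z2) : Finset Z2 :=
  Fintype.piFinset fun k => Finset.Ico (2 ^ ((K - i) * n) * τ k) (2 ^ ((K - i) * n) * (τ k + 1))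

/-- the piece of the cap `τ` of level `i` -/
noncomputable def pie (K n : ℕ) (g : Z2 → E4 → ℂ) (i : ℕ) (τ : Z2) (z : E4) : ℂ := ∑ θ ∈ desc K n i τ, 𝓕⁻ (g θ) z

/-- weighted energy of the pieces on the cube of side `2^(2 K n)` -/
noncomputable def enw (M K n : ℕ) (g : Z2 → E4 → ℂ) : ℝ≥0∞ :=
  ∑ θ ∈ desc K n 0 0, ∫⁻ z, ‖𝓕⁻ (g θ) z‖ₑ ^ 2 * ENNReal.ofReal (((1 + ‖z‖ / 2 ^ (2 * K * n)) ^ M)⁻¹)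

end Vale.Agent.P106.AN
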