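import Vale.Agent.P106.AN.Base
import Vale.Agent.P106.W.Defs

/-! # P106 / AN / Defs : from functions to multiscale amplitudes on the radially truncated cone, literal Props (helper577)

Nodes, amplitudes, `KTop`, `StCORE` : `P106/W/Defs` (helper117).  Coordinates, gauges, pieces : `AN/Base`.  Thickness `2^(h n)`.
Plank of the node `S` of level `i` : `2^(h n) × 2^(i n) × 2^(i n) × 2^(2 i n)`, centre `bp`, slope `s0 n i S.b.τ`. -/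

open MeasureTheory Complex Set
open Vale.Agent.P122.C2 (Z2 fw fn par kids Cap)
open Vale.Agent.P106.W (Nd s0 tl Amp Cbx InB hh KTop StCORE)
open scoped ENNReal NNReal FourierTransform

set_option linter.all false

namespace Vale.Agent.P106.AN

/-- base point of the node `S` of level `i` : `x' = 2^(i n) o`, `t = 2^(2 i n) T`, `nl (s0 n i S.b.τ) = 2^(h n) w` -/
noncomputable def bp (h n i : ℕ) (S : Nd) : E4 :=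
  pt (2 ^ (h * n)) (2 ^ (i * n)) (2 ^ (2 * i * n) * (S.b.T : ℝ)) (s0 n i S.b.τ) S.b.o S.w

/-- weight of the plank `S` of level `i` -/
noncomputable def wN (M h n i : ℕ) (S : Nd) (z : E4) : ℝ≥0∞ :=
  wg M 0 (2 ^ (h * n)) (2 ^ (i * n)) (2 ^ (i * n)) (2 ^ (2 * i * n)) (s0 n i S.b.τ) (z - bp h n i S)

/-- square of the amplitude of `f` on the plank `S` -/
noncomputable def am2 (M h n i : ℕ) (S : Nd) (f : E4 → ℂ) : ℝ≥0∞ :=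
  ENNReal.ofReal (((2:ℝ) ^ (h * n + 4 * i * n))⁻¹) * ∫⁻ z, ‖f z‖ₑ ^ 2 * wN M h n i S z

/-- the cell of the node `x` of level `0` : `1 × 1 × 1 × 2^(h n)` -/
def cube (h n : ℕ) (x : Nd) : Set E4 :=
  {z | ((x.b.o 0 : ℝ) ≤ z 0 ∧ z 0 ≤ x.b.o 0 + 1) ∧ ((x.b.o 1 : ℝ) ≤ z 1 ∧ z 1 ≤ x.b.o 1 + 1) ∧
    ((x.b.T : ℝ) ≤ z 2 ∧ z 2 ≤ x.b.T + 1) ∧ (2 ^ (h * n) * (x.w : ℝ) ≤ z 3 ∧ z 3 ≤ 2 ^ (h * n) * ((x.w : ℝ) + 1))}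

/-! ## the blocks of [AMP] -/

/-- exponent of the weights of level `i` -/
def ex (K M i : ℕ) : ℕ := M + 10 * (K - i)

/-- [L] for one child -/
def LemL (K h M : ℕ) (C0 C : ℝ) : Prop := ∀ (n : ℕ) (ρ : ℝ) (g : Z2 → E4 → ℂ), Dat C0 (h * n) K n ρ g → ∀ i < K, ∀ (S : Nd) (τ' : Z2),
    Cap n i S.b.τ → τ' ∈ kids n S.b.τ →
    am2 (ex K M i) h n i S (pie K n g (i + 1) τ') ≤
      ENNReal.ofReal C * am2 (ex K M (i + 1)) h n (i + 1) ((S.sg n).ch n h i τ') (pie K n g (i + 1) τ')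

/-- [B1] -/
def LemB1 (K h M : ℕ) (C0 C : ℝ) : Prop := ∀ (n : ℕ) (ρ : ℝ) (g : Z2 → E4 → ℂ), Dat C0 (h * n) K n ρ g → ∀ i < K,
    ∀ (σ : Nd) (G : Finset Z2), Cap n i σ.b.τ → G ⊆ kids n σ.b.τ → ∀ U : Finset Nd, (∀ S ∈ U, S.sg n = σ) →
    ∑ S ∈ U, am2 (ex K M i) h n i S (fun z => ∑ τ' ∈ G, pie K n g (i + 1) τ' z) ≤
      ENNReal.ofReal (C * 2 ^ (2 * n)) * ∑ τ' ∈ G, am2 (ex K M (i + 1)) h n (i + 1) (σ.ch n h i τ') (pie K n g (i + 1) τ')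

/-- [B2] -/
def LemB2 (K h M : ℕ) (C0 C : ℝ) : Prop := ∀ (n : ℕ) (ρ : ℝ) (g : Z2 → E4 → ℂ), Dat C0 (h * n) K n ρ g → ∀ (i : ℕ) (θ : ℝ), i < K →
    ∀ (σ : Nd) (G : Finset Z2) (k : ℕ), Cap n i σ.b.τ → G ⊆ kids n σ.b.τ →
      (∀ r : ℝ, (G.filter fun τ' => |fw θ (fun j => (τ' j : ℝ)) - r| ≤ 1).card ≤ k) →
      ∀ (U : Finset Nd) (r : ℝ), (∀ S ∈ U, S.sg n = σ ∧ |fn θ (fun j => (S.b.o j : ℝ)) - r| ≤ 1) →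
        ∑ S ∈ U, am2 (ex K M i) h n i S (fun z => ∑ τ' ∈ G, pie K n g (i + 1) τ' z) ≤
          ENNReal.ofReal (C * 2 ^ n * k) * ∑ τ' ∈ G, am2 (ex K M (i + 1)) h n (i + 1) (σ.ch n h i τ') (pie K n g (i + 1) τ')

/-- the three blocks -/
def StL : Prop := ∀ (K h M : ℕ) (C0 : ℝ), 1 ≤ h → 5 ≤ M → 1 ≤ C0 → ∃ C : ℝ, 0 ≤ C ∧ LemL K h M C0 C

def StB1 : Prop := ∀ (K h M : ℕ) (C0 : ℝ), 1 ≤ h → 5 ≤ M → 1 ≤ C0 → ∃ C : ℝ, 0 ≤ C ∧ LemB1 K h M C0 C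

def StB2 : Prop := ∀ (K h M : ℕ) (C0 : ℝ), 1 ≤ h → 5 ≤ M → 1 ≤ C0 → ∃ C : ℝ, 0 ≤ C ∧ LemB2 K h M C0 C

/-- [AMP] the multiscale amplitudes of the function `F = pie 0 0` on the cube of side `2^(2 K n)` (pointwise form: no exponent) -/
def StAMP : Prop := ∀ (K h M : ℕ) (C0 : ℝ), 1 ≤ K → 1 ≤ h → h ≤ 2 * K → 1 ≤ C0 → ∃ C : ℝ, 1 ≤ C ∧ ∀ (n : ℕ) (ρ : ℝ) (g : Z2 → E4 → ℂ),
  Dat C0 (h * n) K n ρ g → ∃ F : Amp C n h K,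
  (∀ x : Nd, x.b.τ = 0 → 0 ≤ x.b.T → x.b.T < 2 ^ (2 * K * n) → (∀ k, |x.b.o k| ≤ 2 ^ (2 * K * n)) →
    |(x.w : ℝ)| * 2 ^ (h * n) ≤ 2 * 2 ^ (2 * K * n) → ∀ z ∈ cube h n x, ‖pie K n g 0 0 z‖ ≤ C * F.a 0 x) ∧
  (∀ S : Nd, ENNReal.ofReal (F.a K S ^ 2) ≤ ENNReal.ofReal C * am2 M h n K S (pie K n g K S.b.τ))

/-! ## top -/

/-- Katz-Tao condition of the pieces: `KTop` for the squares `am2` of the pieces, boxes `ok c`, planks of the `C1`-fold cube -/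
def KTn (c C1 : ℝ) (M h K n : ℕ) (g : Z2 → E4 → ℂ) (Λ : ℝ) : Prop :=
  ∀ (B : Cbx) (U : Finset Nd), B.ok c ((1 / 2 : ℝ) ^ (K * n)) (hh n h K) →
    (∀ S ∈ U, InB n h K B S ∧ S.b.T = 0 ∧ Cap n K S.b.τ ∧ (∀ k, |(S.b.o k : ℝ)| ≤ C1 * 2 ^ (K * n)) ∧
      |(S.w : ℝ)| * 2 ^ (h * n) ≤ C1 * 2 ^ (2 * K * n)) →
    ∑ S ∈ U, am2 M h n K S (pie K n g K S.b.τ) ≤ ENNReal.ofReal (Λ * B.vol ((1 / 2 : ℝ) ^ (K * n)) (hh n h K))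

/-- estimate on the half `0 ≤ t` of the cube of side `R = 2^(2 K n)` under `KTn`; `C1` = size of the support of the amplitudes,
`c` is as small as the consumer wants -/
def StEn (N : ℝ) : Prop := ∀ ε : ℝ, 0 < ε → ∃ K h : ℕ, 1 ≤ K ∧ 2 ≤ h ∧ (h : ℝ) ≤ ε * K ∧ ∀ (M : ℕ) (C0 : ℝ), 1 ≤ C0 →
  ∃ C1 : ℝ, 1 ≤ C1 ∧ ∀ c : ℝ, 0 < c → ∃ C : ℝ, 0 ≤ C ∧ ∀ (n : ℕ) (ρ : ℝ) (g : Z2 → E4 → ℂ) (Λ : ℝ),
    Dat C0 (h * n) K n ρ g → 0 ≤ Λ → KTn c C1 M h K n g Λ →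
    ∫⁻ z in {z : E4 | (∀ i, |z i| ≤ 2 ^ (2 * K * n)) ∧ 0 ≤ z 2}, ‖pie K n g 0 0 z‖ₑ ^ (2 + 2 / N) ≤
      ENNReal.ofReal (C * 2 ^ (ε * (K * n)) * Λ ^ (1 / N)) * enw M K n g

/-- [TOP] -/
def StTOP : Prop := ∀ N : ℝ, 1 ≤ N → StAMP → StWS → StCORE N → StEn N

end Vale.Agent.P106.AN
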