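import Vale.Agent.P106.AN.Defs

/-! # P106 / AN / Mono : the constant of `Amp` may be increased (helper577) -/

open MeasureTheory Complex Set
open Vale.Agent.P122.C2 (Z2 fw fn par kids Cap)
open Vale.Agent.P106.W (Nd s0 tl Amp Cbx InB hh KTop StCORE)
open scoped ENNReal NNReal FourierTransform

set_option linter.all false

namespace Vale.Agent.P106.AN

/-- larger constant -/
def ampMono {C C' : ℝ} (h : C ≤ C') {n hh K : ℕ} (F : Amp C n hh K) : Amp C' n hh K where
  A := F.A
  a := F.a
  a0 := F.a0
  A0 := F.A0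
  kid := F.kid
  tri := F.tri
  L1 := fun i S G hi hc hG => (F.L1 i S G hi hc hG).trans
    (mul_le_mul_of_nonneg_right h (Finset.sum_nonneg fun _ _ => F.a0 _ _))
  B1 := fun i σ G hi hc hG U hU => (F.B1 i σ G hi hc hG U hU).trans
    (mul_le_mul_of_nonneg_right (mul_le_mul_of_nonneg_right h (by positivity)) (Finset.sum_nonneg fun _ _ => sq_nonneg _))
  B2 := fun i θ h1 hi σ G k hc hG hk U r hU => (F.B2 i θ h1 hi σ G k hc hG hk U r hU).trans
    (mul_le_mul_of_nonneg_right (mul_le_mul_of_nonneg_right (mul_le_mul_of_nonneg_right h (by positivity)) (by positivity))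
      (Finset.sum_nonneg fun _ _ => sq_nonneg _))
  supp := fun S hS => by
    obtain ⟨h1, h2, h3, h4⟩ := F.supp S hS
    exact ⟨h1, h2, fun k => (h3 k).trans (mul_le_mul_of_nonneg_right h (by positivity)),
      h4.trans (mul_le_mul_of_nonneg_right h (by positivity))⟩

@[simp] theorem ampMono_a {C C' : ℝ} (h : C ≤ C') {n hh K : ℕ} (F : Amp C n hh K) : (ampMono h F).a = F.a := rfl

end Vale.Agent.P106.AN
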