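import Vale.Agent.P106.AN.Lem

/-! # P106 / AN / Frq : the pieces on the frequency side (helper577)

Port of P122/H466/{Pie, Loc} and P122/H731/{Box, Near}: `gs`, `inv_gs`, supports, `dual_ex` (input of `StREP`),
`near1`, `near2` (inputs of `StORT`, need `n ≤ κ`). -/

open MeasureTheory Complex Set
open Vale.Agent.P122.C2 (Z2 fw fn par kids Cap)
open scoped ENNReal NNReal FourierTransform RealInnerProductSpace

set_option linter.all false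

namespace Vale.Agent.P106.AN

/-! ### cells -/

theorem mem_kids {n : ℕ} {τ τ' : Z2} : τ' ∈ kids n τ ↔ ∀ k, τ' k / 2 ^ n = τ k := by
  unfold kids
  rw [Fintype.mem_piFinset]
  refine forall_congr' fun k => ?_
  rw [Finset.mem_Ico]
  have h2 : (0:ℤ) < 2 ^ n := by positivity
  constructor
  · rintro ⟨h1, h3⟩
    refine le_antisymm ?_ ?_
    · have : τ' k / 2 ^ n < τ k + 1 := Int.ediv_lt_of_lt_mul h2 (by linarith [mul_comm (τ k + 1) ((2:ℤ) ^ n)])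
      linarith
    · exact (Int.le_ediv_iff_mul_le h2).2 (by linarith [mul_comm (τ k) ((2:ℤ) ^ n)])
  · intro h
    constructor
    · have := (Int.le_ediv_iff_mul_le h2).1 h.ge
      linarith [mul_comm (τ k) ((2:ℤ) ^ n)]
    · have := Int.lt_mul_of_ediv_lt h2 (show τ' k / 2 ^ n < τ k + 1 by linarith)
      linarith [mul_comm (τ k + 1) ((2:ℤ) ^ n)]

theorem mem_desc {K n i : ℕ} {τ θ : Z2} : θ ∈ desc K n i τ ↔ ∀ k, θ k / 2 ^ ((K - i) * n) = τ k := by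
  have : desc K n i τ = kids ((K - i) * n) τ := rfl
  rw [this, mem_kids]

theorem desc_top {K n : ℕ} {τ : Z2} : desc K n K τ = {τ} := by
  ext θ
  rw [mem_desc, Finset.mem_singleton, Nat.sub_self, Nat.zero_mul, pow_zero]
  simp only [Int.ediv_one]
  exact ⟨fun h => funext h, fun h k => by rw [h]⟩

theorem desc_succ {K n i : ℕ} (hi : i < K) {τ θ : Z2} :
    θ ∈ desc K n i τ ↔ (fun k => θ k / 2 ^ ((K - (i + 1)) * n)) ∈ kids n τ := by
  rw [mem_desc, mem_kids]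
  refine forall_congr' fun k => ?_
  have e : (2:ℤ) ^ ((K - i) * n) = 2 ^ ((K - (i + 1)) * n) * 2 ^ n := by
    rw [← pow_add]
    congr 1
    have : K - i = (K - (i + 1)) + 1 := by omega
    rw [this]; ring
  rw [e, ← Int.ediv_ediv_of_nonneg (by positivity)]

theorem sum_desc {M' : Type*} [AddCommMonoid M'] {K n i : ℕ} (hi : i < K) (τ : Z2) (f : Z2 → M') :
    ∑ θ ∈ desc K n i τ, f θ = ∑ τ' ∈ kids n τ, ∑ θ ∈ desc K n (i + 1) τ', f θ := by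
  classical
  rw [← Finset.sum_fiberwise_of_maps_to (s := desc K n i τ) (t := kids n τ)
    (g := fun θ k => θ k / 2 ^ ((K - (i + 1)) * n)) (fun θ hθ => (desc_succ hi).1 hθ)]
  refine Finset.sum_congr rfl fun τ' hτ' => Finset.sum_congr ?_ fun _ _ => rfl
  ext θ
  rw [Finset.mem_filter]
  constructor
  · rintro ⟨-, h⟩
    exact mem_desc.2 fun k => congrFun h k
  · intro h
    have e : (fun k => θ k / 2 ^ ((K - (i + 1)) * n)) = τ' := funext (mem_desc.1 h)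
    exact ⟨(desc_succ hi).2 (by rw [e]; exact hτ'), e⟩

theorem pie_kids {K n i : ℕ} (hi : i < K) (g : Z2 → E4 → ℂ) (τ : Z2) (z : E4) :
    pie K n g i τ z = ∑ τ' ∈ kids n τ, pie K n g (i + 1) τ' z := by
  unfold pie
  exact sum_desc hi τ fun θ => 𝓕⁻ (g θ) z

theorem pie_top (K n : ℕ) (g : Z2 → E4 → ℂ) (τ : Z2) (z : E4) : pie K n g K τ z = 𝓕⁻ (g τ) z := by
  unfold pie
  rw [desc_top, Finset.sum_singleton]

/-- sum of the amplitudes below `τ` -/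
noncomputable def gs (K n : ℕ) (g : Z2 → E4 → ℂ) (i : ℕ) (τ : Z2) (ξ : E4) : ℂ := ∑ θ ∈ desc K n i τ, g θ ξ

theorem inv_fsum {ι : Type*} (I : Finset ι) (g : ι → E4 → ℂ) (hg : ∀ k ∈ I, Integrable (g k)) (z : E4) :
    𝓕⁻ (fun ξ => ∑ k ∈ I, g k ξ) z = ∑ k ∈ I, 𝓕⁻ (g k) z := by
  simp_rw [Real.fourierInv_eq]
  have hk : ∀ k ∈ I, Integrable (fun v : E4 => Real.fourierChar (inner ℝ v z) • g k v) := by
    intro k hk
    have h3 : Continuous (fun v : E4 => ((Real.fourierChar (inner ℝ v z) : Circle) : ℂ)) := by fun_prop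
    exact (hg k hk).bdd_mul (c := 1) h3.aestronglyMeasurable (Filter.Eventually.of_forall fun v => (Circle.norm_coe _).le)
  rw [← integral_finsetSum _ hk]
  congr 1
  ext v
  rw [Finset.smul_sum]

theorem integrable_gs {K n : ℕ} {g : Z2 → E4 → ℂ} (hg : ∀ θ, Integrable (g θ)) (i : ℕ) (τ : Z2) :
    Integrable (gs K n g i τ) := by
  unfold gs
  exact integrable_finsetSum _ fun θ _ => hg θ

theorem inv_gs {K n : ℕ} {g : Z2 → E4 → ℂ} (hg : ∀ θ, Integrable (g θ)) (i : ℕ) (τ : Z2) :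
    𝓕⁻ (gs K n g i τ) = pie K n g i τ := by
  funext z
  unfold gs pie
  exact inv_fsum _ _ (fun k _ => hg k) z

theorem norm_inv_le (g : E4 → ℂ) (z : E4) : ‖𝓕⁻ g z‖ ≤ ∫ v, ‖g v‖ := by
  rw [Real.fourierInv_eq]
  refine (norm_integral_le_integral_norm _).trans (le_of_eq ?_)
  congr 1
  ext v
  rw [Circle.norm_smul]

theorem continuous_pie {K n : ℕ} {g : Z2 → E4 → ℂ} (hg : ∀ θ, Integrable (g θ)) (i : ℕ) (τ : Z2) :
    Continuous (pie K n g i τ) := by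
  unfold pie
  exact continuous_finsetSum _ fun θ _ => continuous_inv (hg θ)

/-! ### supports -/

/-- slope of a frequency -/
noncomputable def sf (ξ : E4) : Fin 2 → ℝ := ![-(ξ 0 / ξ 3), -(ξ 1 / ξ 3)]

theorem sf0 (ξ : E4) : sf ξ 0 = -(ξ 0 / ξ 3) := rfl

theorem sf1 (ξ : E4) : sf ξ 1 = -(ξ 1 / ξ 3) := rfl

section supp

variable {C : ℝ} {κ K n : ℕ} {ρ : ℝ} {g : Z2 → E4 → ℂ}

theorem desc_slp {i : ℕ} (hi : i ≤ K) {τ θ : Z2} (hθ : θ ∈ desc K n i τ) (k : Fin 2) :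
    0 ≤ (θ k : ℝ) / 2 ^ (K * n) - slp n i τ k ∧ (θ k : ℝ) / 2 ^ (K * n) - slp n i τ k ≤ 1 / 2 ^ (i * n) := by
  have hk := mem_desc.1 hθ k
  have h2 : (0:ℤ) < 2 ^ ((K - i) * n) := by positivity
  have a1 : 2 ^ ((K - i) * n) * τ k ≤ θ k := by
    have := Int.mul_ediv_self_le (x := θ k) (k := 2 ^ ((K - i) * n)) h2.ne'
    rw [hk] at this; exact this
  have a2 : θ k < 2 ^ ((K - i) * n) * τ k + 2 ^ ((K - i) * n) := by
    have := Int.lt_mul_ediv_self_add (x := θ k) (k := 2 ^ ((K - i) * n)) h2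
    rw [hk] at this; exact this
  have b1 : (2:ℝ) ^ ((K - i) * n) * τ k ≤ θ k := by exact_mod_cast a1
  have b2 : (θ k : ℝ) ≤ 2 ^ ((K - i) * n) * τ k + 2 ^ ((K - i) * n) := by exact_mod_cast a2.le
  have e : (2:ℝ) ^ (K * n) = 2 ^ ((K - i) * n) * 2 ^ (i * n) := by
    rw [← pow_add, ← add_mul, Nat.sub_add_cancel hi]
  have p1 : (0:ℝ) < 2 ^ ((K - i) * n) := by positivity
  have p2 : (0:ℝ) < 2 ^ (i * n) := by positivity
  have e2 : (τ k : ℝ) / 2 ^ (i * n) = (2 ^ ((K - i) * n) * τ k) / 2 ^ (K * n) := by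
    rw [e]; field_simp
  unfold slp
  rw [e2, ← sub_div]
  constructor
  · apply div_nonneg (by linarith) (by positivity)
  · rw [e, div_le_div_iff₀ (by positivity) p2]
    nlinarith

/-- where the pieces below `τ` live -/
theorem gs_supp (hD : Dat C κ K n ρ g) {i : ℕ} (hi : i ≤ K) (hC : 0 ≤ C) {τ : Z2} {ξ : E4} (hξ : gs K n g i τ ξ ≠ 0) :
    (1 / 2 ≤ ξ 3 ∧ ξ 3 ≤ 2 * C ∧ |ξ 3 - ρ| ≤ C / 2 ^ κ) ∧ (∀ k, |sf ξ k - slp n i τ k| ≤ (C + 1) / 2 ^ (i * n)) ∧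
      |ξ 2 - (ξ 0 ^ 2 + ξ 1 ^ 2) / (2 * ξ 3)| ≤ C / 2 ^ (2 * i * n) := by
  obtain ⟨θ, hθ, hne⟩ : ∃ θ ∈ desc K n i τ, g θ ξ ≠ 0 := by
    by_contra hcon
    push Not at hcon
    exact hξ (Finset.sum_eq_zero hcon)
  have p : (2:ℝ) ^ (i * n) ≤ 2 ^ (K * n) := pow_le_pow_right₀ (by norm_num) (Nat.mul_le_mul_right n hi)
  have p' : (2:ℝ) ^ (2 * i * n) ≤ 2 ^ (2 * K * n) :=
    pow_le_pow_right₀ (by norm_num) (Nat.mul_le_mul_right n (Nat.mul_le_mul_left 2 hi))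
  have h3 : C / 2 ^ (K * n) ≤ C / 2 ^ (i * n) := div_le_div_of_nonneg_left hC (by positivity) p
  obtain ⟨r1, r2⟩ := hD.rad θ ξ hne
  refine ⟨⟨r1, ?_, r2⟩, fun k => ?_, (hD.near θ ξ hne).trans ?_⟩
  · have h4 : C / 2 ^ κ ≤ C := div_le_self hC (one_le_pow₀ (by norm_num))
    have := (abs_le.1 r2).2
    have := hD.rho.2
    linarith
  · have h2 := desc_slp (K := K) (n := n) hi hθ k
    have h1 : |sf ξ k - (θ k : ℝ) / 2 ^ (K * n)| ≤ C / 2 ^ (K * n) := by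
      fin_cases k
      · have := hD.slope0 θ ξ hne
        show |-(ξ 0 / ξ 3) - (θ 0 : ℝ) / 2 ^ (K * n)| ≤ C / 2 ^ (K * n)
        rw [← abs_neg]
        have e : -(-(ξ 0 / ξ 3) - (θ 0 : ℝ) / 2 ^ (K * n)) = ξ 0 / ξ 3 + θ 0 / 2 ^ (K * n) := by ring
        rw [e]; exact this
      · have := hD.slope1 θ ξ hne
        show |-(ξ 1 / ξ 3) - (θ 1 : ℝ) / 2 ^ (K * n)| ≤ C / 2 ^ (K * n)
        rw [← abs_neg]
        have e : -(-(ξ 1 / ξ 3) - (θ 1 : ℝ) / 2 ^ (K * n)) = ξ 1 / ξ 3 + θ 1 / 2 ^ (K * n) := by ring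
        rw [e]; exact this
    have e : sf ξ k - slp n i τ k = (sf ξ k - (θ k : ℝ) / 2 ^ (K * n)) + ((θ k : ℝ) / 2 ^ (K * n) - slp n i τ k) := by ring
    rw [e]
    refine (abs_add_le _ _).trans ?_
    rw [abs_of_nonneg h2.1, add_div]
    linarith [h2.2]
  · exact div_le_div_of_nonneg_left hC (by positivity) p'

/-- the pieces are zero for indices which are not caps -/
theorem gs_zero (hD : Dat C κ K n ρ g) {i : ℕ} (hi : i ≤ K) {τ : Z2} (hτ : ¬ Cap n i τ) (ξ : E4) : gs K n g i τ ξ = 0 := by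
  by_contra hξ
  obtain ⟨θ, hθ, hne⟩ : ∃ θ ∈ desc K n i τ, g θ ξ ≠ 0 := by
    by_contra hcon
    push Not at hcon
    exact hξ (Finset.sum_eq_zero hcon)
  refine hτ fun k => ?_
  obtain ⟨h1, h2⟩ := hD.cell θ ξ hne k
  have hk := mem_desc.1 hθ k
  have e : (2:ℤ) ^ (K * n) = 2 ^ ((K - i) * n) * 2 ^ (i * n) := by
    rw [← pow_add, ← add_mul, Nat.sub_add_cancel hi]
  rw [← hk]
  constructor
  · exact Int.ediv_nonneg h1 (by positivity)
  · refine Int.ediv_lt_of_lt_mul (by positivity) ?_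
    rw [e] at h2
    linarith [mul_comm ((2:ℤ) ^ (i * n)) (2 ^ ((K - i) * n))]

theorem xi0 {ξ : E4} (h : 1 / 2 ≤ ξ 3) : ξ 0 = -(ξ 3 * sf ξ 0) ∧ ξ 1 = -(ξ 3 * sf ξ 1) ∧
    (ξ 0 ^ 2 + ξ 1 ^ 2) / (2 * ξ 3) = ξ 3 * (sf ξ 0 ^ 2 + sf ξ 1 ^ 2) / 2 := by
  have h' : ξ 3 ≠ 0 := by linarith
  rw [sf0, sf1]
  refine ⟨by field_simp, by field_simp, by field_simp⟩

/-- size of the dual boxes -/
noncomputable def cD (C : ℝ) : ℝ := 4 * C * (C + 1) ^ 2 + 4 * C * (C + 1) + 2 * C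

theorem cD_pos {C : ℝ} (hC : 1 ≤ C) : 1 ≤ cD C := by
  unfold cD
  nlinarith [mul_nonneg (by linarith : (0:ℝ) ≤ C) (sq_nonneg (C + 1))]

/-- the support of the cap `τ` is in the dual box of its plank -/
theorem dual_gs (hD : Dat C κ K n ρ g) (hC : 1 ≤ C) {i : ℕ} (hi : i ≤ K) {τ : Z2} {ξ η : E4}
    (hξ : gs K n g i τ ξ ≠ 0) (hη : gs K n g i τ η ≠ 0) :
    Dual (cD C) 0 (2 ^ κ) (2 ^ (i * n)) (2 ^ (i * n)) (2 ^ (2 * i * n)) (slp n i τ) (ξ - η) := by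
  obtain ⟨⟨a1, a1', a1''⟩, a2, a3⟩ := gs_supp hD hi (by linarith) hξ
  obtain ⟨⟨b1, b1', b1''⟩, b2, b3⟩ := gs_supp hD hi (by linarith) hη
  set r : ℝ := 2 ^ (i * n) with hr
  have hr0 : 0 < r := by positivity
  have e2 : (2:ℝ) ^ (2 * i * n) = r ^ 2 := by rw [hr, ← pow_mul]; congr 1; ring
  rw [e2] at a3 b3 ⊢
  obtain ⟨x0, x1, x2⟩ := xi0 a1
  obtain ⟨y0, y1, y2⟩ := xi0 b1
  rw [x2] at a3
  rw [y2] at b3
  set s := slp n i τ with hs
  have hp1 : 0 ≤ 4 * C * (C + 1) ^ 2 := by positivity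
  have hp2 : 0 ≤ 4 * C * (C + 1) := by positivity
  have d3 : (ξ - η) 3 = ξ 3 - η 3 := rfl
  have d2 : (ξ - η) 2 = ξ 2 - η 2 := rfl
  have d1 : (ξ - η) 1 = ξ 1 - η 1 := rfl
  have d0 : (ξ - η) 0 = ξ 0 - η 0 := rfl
  have hk : ∀ k, |-(ξ 3 * (sf ξ k - s k)) + η 3 * (sf η k - s k)| ≤ cD C / r := by
    intro k
    refine (abs_add_le _ _).trans ?_
    rw [abs_neg, abs_mul, abs_mul, abs_of_pos (by linarith : 0 < ξ 3), abs_of_pos (by linarith : 0 < η 3)]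
    have t1 : ξ 3 * |sf ξ k - s k| ≤ 2 * C * ((C + 1) / r) := mul_le_mul a1' (a2 k) (abs_nonneg _) (by linarith)
    have t2 : η 3 * |sf η k - s k| ≤ 2 * C * ((C + 1) / r) := mul_le_mul b1' (b2 k) (abs_nonneg _) (by linarith)
    have t3 : 2 * C * ((C + 1) / r) + 2 * C * ((C + 1) / r) = 4 * C * (C + 1) / r := by ring
    have t4 : 4 * C * (C + 1) / r ≤ cD C / r := div_le_div_of_nonneg_right (by unfold cD; linarith) hr0.le
    linarith
  refine ⟨?_, ?_, ?_, ?_⟩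
  · rw [d3]
    have e : ξ 3 - η 3 = (ξ 3 - ρ) - (η 3 - ρ) := by ring
    rw [e]
    refine (abs_sub _ _).trans ?_
    have t : cD C / 2 ^ κ = C / 2 ^ κ + C / 2 ^ κ + (4 * C * (C + 1) ^ 2 + 4 * C * (C + 1)) / 2 ^ κ := by unfold cD; ring
    have t' : 0 ≤ (4 * C * (C + 1) ^ 2 + 4 * C * (C + 1)) / 2 ^ κ := by positivity
    rw [t]; linarith
  · rw [fw_zero_frame]
    show |(ξ - η) 0 + (ξ - η) 3 * s 0| ≤ _
    have e : (ξ - η) 0 + (ξ - η) 3 * s 0 = -(ξ 3 * (sf ξ 0 - s 0)) + η 3 * (sf η 0 - s 0) := by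
      rw [d0, d3, x0, y0]; ring
    rw [e]; exact hk 0
  · rw [fn_zero_frame]
    show |(ξ - η) 1 + (ξ - η) 3 * s 1| ≤ _
    have e : (ξ - η) 1 + (ξ - η) 3 * s 1 = -(ξ 3 * (sf ξ 1 - s 1)) + η 3 * (sf η 1 - s 1) := by
      rw [d1, d3, x1, y1]; ring
    rw [e]; exact hk 1
  · have e : (ξ - η) 2 + s 0 * (ξ - η) 0 + s 1 * (ξ - η) 1 + (ξ - η) 3 * (s 0 ^ 2 + s 1 ^ 2) / 2 =
        (ξ 2 - ξ 3 * (sf ξ 0 ^ 2 + sf ξ 1 ^ 2) / 2) - (η 2 - η 3 * (sf η 0 ^ 2 + sf η 1 ^ 2) / 2) +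
        (ξ 3 * ((sf ξ 0 - s 0) ^ 2 + (sf ξ 1 - s 1) ^ 2) / 2 - η 3 * ((sf η 0 - s 0) ^ 2 + (sf η 1 - s 1) ^ 2) / 2) := by
      rw [d2, d0, d1, d3, x0, x1, y0, y1]; ring
    rw [e]
    have sq : ∀ {a : ℝ}, |a| ≤ (C + 1) / r → a ^ 2 ≤ ((C + 1) / r) ^ 2 := fun {a} ha => by
      rw [← sq_abs]; exact pow_le_pow_left₀ (abs_nonneg _) ha 2
    have q1 := sq (a2 0)
    have q2 := sq (a2 1)
    have q3 := sq (b2 0)
    have q4 := sq (b2 1)
    have t1 : 0 ≤ ξ 3 * ((sf ξ 0 - s 0) ^ 2 + (sf ξ 1 - s 1) ^ 2) / 2 ∧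
        ξ 3 * ((sf ξ 0 - s 0) ^ 2 + (sf ξ 1 - s 1) ^ 2) / 2 ≤ 2 * C * ((C + 1) / r) ^ 2 := by
      constructor
      · have : 0 ≤ ξ 3 := by linarith
        positivity
      · have : ξ 3 * ((sf ξ 0 - s 0) ^ 2 + (sf ξ 1 - s 1) ^ 2) ≤ 2 * C * (2 * ((C + 1) / r) ^ 2) :=
          mul_le_mul a1' (by linarith) (by positivity) (by linarith)
        linarith
    have t2 : 0 ≤ η 3 * ((sf η 0 - s 0) ^ 2 + (sf η 1 - s 1) ^ 2) / 2 ∧
        η 3 * ((sf η 0 - s 0) ^ 2 + (sf η 1 - s 1) ^ 2) / 2 ≤ 2 * C * ((C + 1) / r) ^ 2 := by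
      constructor
      · have : 0 ≤ η 3 := by linarith
        positivity
      · have : η 3 * ((sf η 0 - s 0) ^ 2 + (sf η 1 - s 1) ^ 2) ≤ 2 * C * (2 * ((C + 1) / r) ^ 2) :=
          mul_le_mul b1' (by linarith) (by positivity) (by linarith)
        linarith
    have ec : cD C / r ^ 2 = C / r ^ 2 + C / r ^ 2 + 2 * C * ((C + 1) / r) ^ 2 + 2 * C * ((C + 1) / r) ^ 2 + 4 * C * (C + 1) / r ^ 2 := by
      unfold cD; field_simp; ring
    have hpos : 0 ≤ 4 * C * (C + 1) / r ^ 2 := by positivity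
    have k1 := abs_le.1 a3
    have k2 := abs_le.1 b3
    rw [ec, abs_le]
    constructor
    · linarith [k1.1, k2.2, t1.1, t2.2]
    · linarith [k1.2, k2.1, t1.2, t2.1]

theorem dual_mono {c c' θ ρ0 ρ1 ρ2 ρ3 : ℝ} {s : Fin 2 → ℝ} {ξ : E4} (h : c ≤ c') (h0 : 0 < ρ0) (h1 : 0 < ρ1) (h2 : 0 < ρ2)
    (h3 : 0 < ρ3) (hd : Dual c θ ρ0 ρ1 ρ2 ρ3 s ξ) : Dual c' θ ρ0 ρ1 ρ2 ρ3 s ξ := by
  obtain ⟨a0, a1, a2, a3⟩ := hd
  exact ⟨a0.trans (by gcongr), a1.trans (by gcongr), a2.trans (by gcongr), a3.trans (by gcongr)⟩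

/-- input of `StREP` -/
theorem dual_ex {c : ℝ} (hD : Dat C κ K n ρ g) (hC : 1 ≤ C) (hc : cD C ≤ c) {i : ℕ} (hi : i ≤ K) (τ : Z2) :
    ∃ ξ0, ∀ ξ, gs K n g i τ ξ ≠ 0 →
      Dual c 0 (2 ^ κ) (2 ^ (i * n)) (2 ^ (i * n)) (2 ^ (2 * i * n)) (slp n i τ) (ξ - ξ0) := by
  by_cases h0 : ∃ η, gs K n g i τ η ≠ 0
  · obtain ⟨η, hη⟩ := h0
    refine ⟨η, fun ξ hξ => ?_⟩
    exact dual_mono hc (by positivity) (by positivity) (by positivity) (by positivity) (dual_gs hD hC hi hξ hη)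
  · exact ⟨0, fun ξ hξ => absurd ⟨ξ, hξ⟩ h0⟩

/-! ### overlaps -/

/-- number of the caps in a ball of caps -/
theorem card_near {J : Finset Z2} {t : Z2} {B : ℕ} (h : ∀ l ∈ J, ∀ k, |(t k : ℝ) - l k| ≤ B) :
    J.card ≤ (2 * B + 1) ^ 2 := by
  have hsub : J ⊆ Fintype.piFinset fun k => Finset.Icc (t k - B) (t k + B) := by
    intro l hl
    rw [Fintype.mem_piFinset]
    intro k
    rw [Finset.mem_Icc]
    have h1 : |t k - l k| ≤ (B : ℤ) := by exact_mod_cast h l hl k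
    obtain ⟨a, b⟩ := abs_le.1 h1
    constructor <;> omega
  refine (Finset.card_le_card hsub).trans ?_
  rw [Fintype.card_piFinset]
  simp only [Int.card_Icc, Fin.prod_univ_two]
  have e : ∀ a : ℤ, (a + B + 1 - (a - B)).toNat = 2 * B + 1 := by intro a; omega
  rw [e, e]
  exact le_of_eq (by ring)

theorem slp_kid {i : ℕ} {τ τ' : Z2} (h : τ' ∈ kids n τ) (k : Fin 2) :
    |slp n (i + 1) τ' k - slp n i τ k| ≤ 1 / 2 ^ (i * n) := by
  have hk := mem_kids.1 h k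
  have hp' : (0:ℤ) < 2 ^ n := by positivity
  have h2 : 2 ^ n * τ k ≤ τ' k := by
    have := Int.mul_ediv_self_le (x := τ' k) (k := 2 ^ n) hp'.ne'
    rw [hk] at this; exact this
  have h2' : τ' k < 2 ^ n * τ k + 2 ^ n := by
    have := Int.lt_mul_ediv_self_add (x := τ' k) (k := 2 ^ n) hp'
    rw [hk] at this; exact this
  have h3 : (2:ℝ) ^ n * τ k ≤ τ' k := by exact_mod_cast h2
  have h4 : (τ' k : ℝ) ≤ 2 ^ n * τ k + 2 ^ n := by exact_mod_cast h2'.le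
  unfold slp
  have e : (2:ℝ) ^ ((i + 1) * n) = 2 ^ n * 2 ^ (i * n) := by rw [← pow_add]; congr 1; ring
  have hp : (0:ℝ) < 2 ^ n := by positivity
  have hq : (0:ℝ) < 2 ^ (i * n) := by positivity
  have e2 : (τ' k : ℝ) / 2 ^ ((i + 1) * n) - τ k / 2 ^ (i * n) = ((τ' k : ℝ) - 2 ^ n * τ k) / 2 ^ n / 2 ^ (i * n) := by
    rw [e]; field_simp
  rw [e2, abs_div, abs_of_pos hq]
  refine div_le_div_of_nonneg_right ?_ hq.le
  rw [abs_div, abs_of_pos hp, div_le_one hp, abs_le]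
  constructor <;> linarith

theorem slp_diff {i : ℕ} (τ τ' : Z2) (k : Fin 2) :
    (2:ℝ) ^ (i * n) * (slp n i τ k - slp n i τ' k) = τ k - τ' k := by
  have hp : (0:ℝ) < 2 ^ (i * n) := by positivity
  unfold slp
  rw [← sub_div]
  field_simp

/-- constant of the overlaps -/
noncomputable def cN (C : ℝ) : ℝ := 2 * (1 + 8 * C * (C + 2)) + 4 * (C + 1)

/-- for a linear functional `L = fw θ` or `fn θ`: the pieces of two children which meet modulo the dual box -/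
theorem near_lin (hD : Dat C κ K n ρ g) (hC : 1 ≤ C) (hκ : n ≤ κ) {i : ℕ} (hi : i < K) {τ t l : Z2} (ht : t ∈ kids n τ)
    (hl : l ∈ kids n τ) {ξ η : E4} (hξ : gs K n g (i + 1) t ξ ≠ 0) (hη : gs K n g (i + 1) l η ≠ 0) {p q : ℝ} (hp : |p| ≤ 1)
    (hq : |q| ≤ 1)
    (h1 : |p * ((ξ - η) 0 + (ξ - η) 3 * slp n i τ 0) + q * ((ξ - η) 1 + (ξ - η) 3 * slp n i τ 1)| ≤ 1 / 2 ^ ((i + 1) * n)) :
    |p * ((t 0 : ℝ) - l 0) + q * ((t 1 : ℝ) - l 1)| ≤ cN C := by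
  obtain ⟨⟨a1, a1', a1''⟩, a2, -⟩ := gs_supp hD (show i + 1 ≤ K from hi) (by linarith) hξ
  obtain ⟨⟨b1, b1', b1''⟩, b2, -⟩ := gs_supp hD (show i + 1 ≤ K from hi) (by linarith) hη
  obtain ⟨x0, x1, -⟩ := xi0 a1
  obtain ⟨y0, y1, -⟩ := xi0 b1
  set r : ℝ := 2 ^ ((i + 1) * n) with hr
  have hr0 : 0 < r := by positivity
  set s := slp n i τ with hs
  set st := slp n (i + 1) t with hst
  set sl := slp n (i + 1) l with hsl
  have hri : (2:ℝ) ^ ((i + 1) * n) = 2 ^ n * 2 ^ (i * n) := by rw [← pow_add]; congr 1; ring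
  have hr1 : (1:ℝ) / 2 ^ κ * (1 / 2 ^ (i * n)) ≤ 1 / r := by
    rw [hr, hri, ← one_div_mul_one_div]
    refine mul_le_mul_of_nonneg_right ?_ (by positivity)
    exact one_div_le_one_div_of_le (by positivity) (pow_le_pow_right₀ (by norm_num) hκ)
  have hi1 : (2:ℝ) ^ (i * n) ≤ r := by
    rw [hr]; exact pow_le_pow_right₀ (by norm_num) (Nat.mul_le_mul_right n (by omega))
  -- the difference of the radial frequencies
  have hrad : |ξ 3 - η 3| ≤ 2 * C / 2 ^ κ := by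
    have e : ξ 3 - η 3 = (ξ 3 - ρ) - (η 3 - ρ) := by ring
    rw [e]
    refine (abs_sub _ _).trans ?_
    have : 2 * C / 2 ^ κ = C / 2 ^ κ + C / 2 ^ κ := by ring
    linarith
  -- the slope of η and the slope of τ
  have hsη : ∀ k, |s k - sf η k| ≤ (C + 2) / 2 ^ (i * n) := by
    intro k
    have e : s k - sf η k = -(sl k - s k) - (sf η k - sl k) := by ring
    rw [e]
    refine (abs_sub _ _).trans ?_
    rw [abs_neg]
    have u1 := slp_kid (n := n) (i := i) hl k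
    have u2 := b2 k
    have u3 : (C + 1) / r ≤ (C + 1) / 2 ^ (i * n) := div_le_div_of_nonneg_left (by linarith) (by positivity) hi1
    have u4 : (C + 2) / 2 ^ (i * n) = 1 / 2 ^ (i * n) + (C + 1) / 2 ^ (i * n) := by ring
    rw [u4]
    exact add_le_add u1 (u2.trans u3)
  have e1 : p * ((ξ - η) 0 + (ξ - η) 3 * s 0) + q * ((ξ - η) 1 + (ξ - η) 3 * s 1) =
      -(ξ 3 * (p * (sf ξ 0 - sf η 0) + q * (sf ξ 1 - sf η 1))) + (ξ 3 - η 3) * (p * (s 0 - sf η 0) + q * (s 1 - sf η 1)) := by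
    have d3 : (ξ - η) 3 = ξ 3 - η 3 := rfl
    have d1 : (ξ - η) 1 = ξ 1 - η 1 := rfl
    have d0 : (ξ - η) 0 = ξ 0 - η 0 := rfl
    rw [d0, d1, d3, x0, x1, y0, y1]; ring
  rw [e1] at h1
  have h2 : |(ξ 3 - η 3) * (p * (s 0 - sf η 0) + q * (s 1 - sf η 1))| ≤ 4 * C * (C + 2) / r := by
    rw [abs_mul]
    have t1 : |p * (s 0 - sf η 0) + q * (s 1 - sf η 1)| ≤ 2 * ((C + 2) / 2 ^ (i * n)) := by
      refine (abs_cs p q _ _ hp hq).trans ?_
      have := hsη 0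
      have := hsη 1
      linarith
    calc |ξ 3 - η 3| * |p * (s 0 - sf η 0) + q * (s 1 - sf η 1)| ≤ (2 * C / 2 ^ κ) * (2 * ((C + 2) / 2 ^ (i * n))) :=
          mul_le_mul hrad t1 (abs_nonneg _) (by positivity)
      _ = 4 * C * (C + 2) * (1 / 2 ^ κ * (1 / 2 ^ (i * n))) := by ring
      _ ≤ 4 * C * (C + 2) * (1 / r) := mul_le_mul_of_nonneg_left hr1 (by positivity)
      _ = 4 * C * (C + 2) / r := by ring
  have h3 : |ξ 3 * (p * (sf ξ 0 - sf η 0) + q * (sf ξ 1 - sf η 1))| ≤ (1 + 4 * C * (C + 2)) / r := by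
    set X := ξ 3 * (p * (sf ξ 0 - sf η 0) + q * (sf ξ 1 - sf η 1)) with hX
    set Y := (ξ 3 - η 3) * (p * (s 0 - sf η 0) + q * (s 1 - sf η 1)) with hY
    have e : X = Y - (-X + Y) := by ring
    have e' : (1 + 4 * C * (C + 2)) / r = 4 * C * (C + 2) / r + 1 / r := by ring
    rw [e, e']
    exact (abs_sub _ _).trans (add_le_add h2 h1)
  have h4 : |p * (sf ξ 0 - sf η 0) + q * (sf ξ 1 - sf η 1)| ≤ 2 * (1 + 4 * C * (C + 2)) / r := by
    rw [abs_mul, abs_of_pos (by linarith : 0 < ξ 3)] at h3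
    have h5 : 1 / 2 * |p * (sf ξ 0 - sf η 0) + q * (sf ξ 1 - sf η 1)| ≤ ξ 3 * |p * (sf ξ 0 - sf η 0) + q * (sf ξ 1 - sf η 1)| :=
      mul_le_mul_of_nonneg_right a1 (abs_nonneg _)
    have e' : 2 * (1 + 4 * C * (C + 2)) / r = 2 * ((1 + 4 * C * (C + 2)) / r) := by ring
    rw [e']
    linarith
  have h5 : |p * (st 0 - sl 0) + q * (st 1 - sl 1)| ≤ cN C / r := by
    have e : p * (st 0 - sl 0) + q * (st 1 - sl 1) = (p * (sf ξ 0 - sf η 0) + q * (sf ξ 1 - sf η 1)) +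
        (-(p * (sf ξ 0 - st 0) + q * (sf ξ 1 - st 1)) + (p * (sf η 0 - sl 0) + q * (sf η 1 - sl 1))) := by ring
    rw [e]
    have u1 : |p * (sf ξ 0 - st 0) + q * (sf ξ 1 - st 1)| ≤ 2 * ((C + 1) / r) := by
      refine (abs_cs p q _ _ hp hq).trans ?_
      have := a2 0
      have := a2 1
      linarith
    have u2 : |p * (sf η 0 - sl 0) + q * (sf η 1 - sl 1)| ≤ 2 * ((C + 1) / r) := by
      refine (abs_cs p q _ _ hp hq).trans ?_
      have := b2 0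
      have := b2 1
      linarith
    refine (abs_add_le _ _).trans ?_
    have u3 := (abs_add_le (-(p * (sf ξ 0 - st 0) + q * (sf ξ 1 - st 1))) (p * (sf η 0 - sl 0) + q * (sf η 1 - sl 1)))
    rw [abs_neg] at u3
    have e' : cN C / r = 2 * (1 + 4 * C * (C + 2)) / r + (2 * ((C + 1) / r) + 2 * ((C + 1) / r)) + 8 * C * (C + 2) / r := by
      unfold cN; field_simp; ring
    have e'' : 0 ≤ 8 * C * (C + 2) / r := by positivity
    rw [e']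
    linarith
  have e6 : p * ((t 0 : ℝ) - l 0) + q * ((t 1 : ℝ) - l 1) = r * (p * (st 0 - sl 0) + q * (st 1 - sl 1)) := by
    rw [← slp_diff (n := n) (i := i + 1) t l 0, ← slp_diff (n := n) (i := i + 1) t l 1]
    ring
  rw [e6, abs_mul, abs_of_pos hr0]
  calc r * |p * (st 0 - sl 0) + q * (st 1 - sl 1)| ≤ r * (cN C / r) := mul_le_mul_of_nonneg_left h5 hr0.le
    _ = cN C := by field_simp

end supp

/-- [near1] overlaps on discs -/
theorem near1 {C : ℝ} (hC : 1 ≤ C) : ∃ m : ℕ, ∀ (κ K n : ℕ) (ρ : ℝ) (g : Z2 → E4 → ℂ), Dat C κ K n ρ g → n ≤ κ → ∀ i < K,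
    ∀ (τ : Z2), ∀ G ⊆ kids n τ, ∀ k ∈ G, ∀ J ⊆ G, (∀ l ∈ J, ∃ ξ η, gs K n g (i + 1) k ξ ≠ 0 ∧ gs K n g (i + 1) l η ≠ 0 ∧
      Dual 1 0 (2 ^ κ) (2 ^ ((i + 1) * n)) (2 ^ ((i + 1) * n)) (2 ^ (2 * i * n)) (slp n i τ) (ξ - η)) → J.card ≤ m := by
  obtain ⟨B, hB⟩ := exists_nat_ge (cN C)
  refine ⟨(2 * B + 1) ^ 2, ?_⟩
  intro κ K n ρ g hD hκ i hi τ G hG k hk J hJ hl
  refine card_near (t := k) fun l hlJ j => ?_
  obtain ⟨ξ, η, hξ, hη, hd⟩ := hl l hlJ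
  have w1 := hd.2.1
  have w2 := hd.2.2.1
  rw [fw_zero_frame] at w1
  rw [fn_zero_frame] at w2
  refine le_trans ?_ hB
  fin_cases j
  · have := near_lin hD hC hκ hi (hG hk) (hG (hJ hlJ)) hξ hη (p := 1) (q := 0) (by norm_num) (by norm_num)
      (by rw [one_mul, zero_mul, add_zero]; exact w1)
    rw [one_mul, zero_mul, add_zero] at this
    exact this
  · have := near_lin hD hC hκ hi (hG hk) (hG (hJ hlJ)) hξ hη (p := 0) (q := 1) (by norm_num) (by norm_num)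
      (by rw [one_mul, zero_mul, zero_add]; exact w2)
    rw [one_mul, zero_mul, zero_add] at this
    exact this

/-- [near2] overlaps on strips: the columns are the caps with the same coordinate `fw θ` up to `1` -/
theorem near2 {C : ℝ} (hC : 1 ≤ C) : ∃ m : ℕ, ∀ (κ K n : ℕ) (ρ : ℝ) (g : Z2 → E4 → ℂ), Dat C κ K n ρ g → n ≤ κ → ∀ i < K,
    ∀ (τ : Z2) (θ : ℝ), ∀ G ⊆ kids n τ, ∀ q : ℕ, (∀ r : ℝ, (G.filter fun t => |fw θ (fun j => (t j : ℝ)) - r| ≤ 1).card ≤ q) →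
    ∀ k ∈ G, ∀ J ⊆ G, (∀ l ∈ J, ∃ ξ η, gs K n g (i + 1) k ξ ≠ 0 ∧ gs K n g (i + 1) l η ≠ 0 ∧
      Dual 1 θ (2 ^ κ) (2 ^ ((i + 1) * n)) (2 ^ (i * n)) (2 ^ (2 * i * n)) (slp n i τ) (ξ - η)) → J.card ≤ m * q := by
  classical
  obtain ⟨B, hB⟩ := exists_nat_ge (cN C)
  refine ⟨2 * B + 1, ?_⟩
  intro κ K n ρ g hD hκ i hi τ θ G hG q hq k hk J hJ hl
  have key : ∀ l ∈ J, |fw θ (fun j => (k j : ℝ)) - fw θ (fun j => (l j : ℝ))| ≤ B := by
    intro l hlJ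
    obtain ⟨ξ, η, hξ, hη, hd⟩ := hl l hlJ
    have := near_lin hD hC hκ hi (hG hk) (hG (hJ hlJ)) hξ hη (p := Real.cos θ) (q := Real.sin θ) (Real.abs_cos_le_one θ)
      (Real.abs_sin_le_one θ) hd.2.1
    refine le_trans (le_of_eq ?_) (this.trans hB)
    congr 1
    unfold fw
    ring
  have hsub : J ⊆ (Finset.range (2 * B + 1)).biUnion fun j => G.filter fun t =>
      |fw θ (fun j => (t j : ℝ)) - (fw θ (fun j => (k j : ℝ)) + ((j : ℝ) - B))| ≤ 1 := by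
    intro l hlJ
    rw [Finset.mem_biUnion]
    have h1 := abs_le.1 (key l hlJ)
    set D := fw θ (fun j => (l j : ℝ)) - fw θ (fun j => (k j : ℝ)) + B with hD'
    have hD0 : 0 ≤ D := by rw [hD']; linarith [h1.2]
    have hD1 : D ≤ 2 * B := by rw [hD']; linarith [h1.1]
    refine ⟨⌊D⌋₊, ?_, ?_⟩
    · rw [Finset.mem_range]
      have : ⌊D⌋₊ ≤ 2 * B := by
        refine Nat.floor_le_of_le ?_
        push_cast
        exact hD1
      omega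
    · rw [Finset.mem_filter]
      refine ⟨hJ hlJ, ?_⟩
      have f1 := Nat.floor_le hD0
      have f2 := (Nat.lt_floor_add_one D).le
      rw [abs_le]
      constructor
      · rw [hD'] at f1 f2 ⊢; linarith
      · rw [hD'] at f1 f2 ⊢; linarith
  refine (Finset.card_le_card hsub).trans (Finset.card_biUnion_le.trans ?_)
  refine (Finset.sum_le_card_nsmul _ _ q fun j _ => hq _).trans (le_of_eq ?_)
  rw [Finset.card_range, smul_eq_mul]

end Vale.Agent.P106.AN
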