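import Vale.Agent.P106.AN.Defs

/-! # P106 / AN / Lem : gauges and weights in `ℝ⁴`, `stWG` (helper577; port of P122/H466/Gau and P122/AN275/Gau) -/

open MeasureTheory Complex Set
open Vale.Agent.P122.C2 (Z2 fw fn par kids Cap)
open scoped ENNReal NNReal FourierTransform

set_option linter.all false

namespace Vale.Agent.P106.AN

/-! ### frames -/

theorem fw_add (θ : ℝ) (u v : Fin 2 → ℝ) : fw θ (u + v) = fw θ u + fw θ v := by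
  unfold fw; simp only [Pi.add_apply]; ring

theorem fn_add (θ : ℝ) (u v : Fin 2 → ℝ) : fn θ (u + v) = fn θ u + fn θ v := by
  unfold fn; simp only [Pi.add_apply]; ring

theorem fw_neg (θ : ℝ) (u : Fin 2 → ℝ) : fw θ (-u) = -fw θ u := by
  unfold fw; simp only [Pi.neg_apply]; ring

theorem fn_neg (θ : ℝ) (u : Fin 2 → ℝ) : fn θ (-u) = -fn θ u := by
  unfold fn; simp only [Pi.neg_apply]; ring

theorem fw_zero_frame (u : Fin 2 → ℝ) : fw 0 u = u 0 := by unfold fw; simp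

theorem fn_zero_frame (u : Fin 2 → ℝ) : fn 0 u = u 1 := by unfold fn; simp

theorem abs_cs (a b x y : ℝ) (ha : |a| ≤ 1) (hb : |b| ≤ 1) : |a * x + b * y| ≤ |x| + |y| := by
  refine (abs_add_le _ _).trans ?_
  rw [abs_mul, abs_mul]
  nlinarith [abs_nonneg x, abs_nonneg y]

theorem abs_fw_le (θ : ℝ) (u : Fin 2 → ℝ) : |fw θ u| ≤ |u 0| + |u 1| :=
  abs_cs _ _ _ _ (Real.abs_cos_le_one θ) (Real.abs_sin_le_one θ)

theorem abs_fn_le (θ : ℝ) (u : Fin 2 → ℝ) : |fn θ u| ≤ |u 0| + |u 1| := by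
  unfold fn
  exact abs_cs _ _ _ _ (by rw [abs_neg]; exact Real.abs_sin_le_one θ) (Real.abs_cos_le_one θ)

theorem abs_zero_le (θ : ℝ) (u : Fin 2 → ℝ) : |u 0| ≤ |fw θ u| + |fn θ u| := by
  have h := Real.cos_sq_add_sin_sq θ
  have e : u 0 = Real.cos θ * fw θ u + (-Real.sin θ) * fn θ u := by
    unfold fw fn
    linear_combination (-(u 0)) * h
  calc |u 0| = |Real.cos θ * fw θ u + (-Real.sin θ) * fn θ u| := by rw [← e]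
    _ ≤ _ := abs_cs _ _ _ _ (Real.abs_cos_le_one θ) (by rw [abs_neg]; exact Real.abs_sin_le_one θ)

theorem abs_one_le (θ : ℝ) (u : Fin 2 → ℝ) : |u 1| ≤ |fw θ u| + |fn θ u| := by
  have h := Real.cos_sq_add_sin_sq θ
  have e : u 1 = Real.sin θ * fw θ u + Real.cos θ * fn θ u := by
    unfold fw fn
    linear_combination (-(u 1)) * h
  calc |u 1| = |Real.sin θ * fw θ u + Real.cos θ * fn θ u| := by rw [← e]
    _ ≤ _ := abs_cs _ _ _ _ (Real.abs_sin_le_one θ) (Real.abs_cos_le_one θ)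

/-- change of frame -/
theorem fw_chg (θ θ' : ℝ) (v : Fin 2 → ℝ) : |fw θ v| ≤ |fw θ' v| + |fn θ' v| := by
  have e : fw θ v = Real.cos (θ - θ') * fw θ' v + Real.sin (θ - θ') * fn θ' v := by
    have h := Real.sin_sq_add_cos_sq θ'
    unfold fw fn
    rw [Real.cos_sub, Real.sin_sub]
    linear_combination (-(Real.cos θ * v 0) - Real.sin θ * v 1) * h
  rw [e]
  exact abs_cs _ _ _ _ (Real.abs_cos_le_one _) (Real.abs_sin_le_one _)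

theorem fn_chg (θ θ' : ℝ) (v : Fin 2 → ℝ) : |fn θ v| ≤ |fw θ' v| + |fn θ' v| := by
  have e : fn θ v = -Real.sin (θ - θ') * fw θ' v + Real.cos (θ - θ') * fn θ' v := by
    have h := Real.sin_sq_add_cos_sq θ'
    unfold fw fn
    rw [Real.cos_sub, Real.sin_sub]
    linear_combination (Real.sin θ * v 0 - Real.cos θ * v 1) * h
  rw [e]
  exact abs_cs _ _ _ _ (by rw [abs_neg]; exact Real.abs_sin_le_one _) (Real.abs_cos_le_one _)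

/-! ### gauges -/

theorem dv_add (s : Fin 2 → ℝ) (y z : E4) : dv s (y + z) = dv s y + dv s z := by
  unfold dv
  ext k
  fin_cases k <;> simp <;> ring

theorem dv_neg (s : Fin 2 → ℝ) (z : E4) : dv s (-z) = -dv s z := by
  unfold dv
  ext k
  fin_cases k <;> simp <;> ring

theorem dv_zero (s : Fin 2 → ℝ) (z : E4) : dv s z 0 = z 0 - s 0 * z 2 := rfl

theorem dv_one (s : Fin 2 → ℝ) (z : E4) : dv s z 1 = z 1 - s 1 * z 2 := rfl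

theorem nl_add (s : Fin 2 → ℝ) (y z : E4) : nl s (y + z) = nl s y + nl s z := by
  unfold nl
  simp only [PiLp.add_apply]
  ring

theorem nl_neg (s : Fin 2 → ℝ) (z : E4) : nl s (-z) = -nl s z := by
  unfold nl
  simp only [PiLp.neg_apply]
  ring

theorem nl_sub (s : Fin 2 → ℝ) (y z : E4) : nl s (y - z) = nl s y - nl s z := by
  rw [sub_eq_add_neg, nl_add, nl_neg]; ring

theorem dv_sub (s : Fin 2 → ℝ) (y z : E4) : dv s (y - z) = dv s y - dv s z := by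
  rw [sub_eq_add_neg, dv_add, dv_neg]; rfl

/-- change of the slope in `dv` -/
theorem dv_chg (s s' : Fin 2 → ℝ) (z : E4) : dv s z = dv s' z + fun i => -(z 2 * (s i - s' i)) := by
  unfold dv
  ext k
  fin_cases k <;> simp <;> ring

/-- change of the slope in `nl`, centred form -/
theorem nl_chg (s s' : Fin 2 → ℝ) (z : E4) :
    nl s z = nl s' z - ((s 0 - s' 0) * dv s' z 0 + (s 1 - s' 1) * dv s' z 1) + ((s 0 - s' 0) ^ 2 + (s 1 - s' 1) ^ 2) / 2 * z 2 := by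
  rw [dv_zero, dv_one]
  unfold nl
  ring

theorem dot_frame (θ : ℝ) (a b : Fin 2 → ℝ) : a 0 * b 0 + a 1 * b 1 = fw θ a * fw θ b + fn θ a * fn θ b := by
  have h := Real.cos_sq_add_sin_sq θ
  unfold fw fn
  linear_combination (-(a 0 * b 0) - a 1 * b 1) * h

/-- the base points -/
theorem nl_pt (ρ0 ρ t : ℝ) (s : Fin 2 → ℝ) (o : Z2) (w : ℤ) : nl s (pt ρ0 ρ t s o w) = ρ0 * w := by
  unfold nl pt
  simp
  ring

theorem pt_zero (ρ0 ρ t : ℝ) (s : Fin 2 → ℝ) (o : Z2) (w : ℤ) : pt ρ0 ρ t s o w 0 = ρ * o 0 := rfl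

theorem pt_one (ρ0 ρ t : ℝ) (s : Fin 2 → ℝ) (o : Z2) (w : ℤ) : pt ρ0 ρ t s o w 1 = ρ * o 1 := rfl

theorem pt_two (ρ0 ρ t : ℝ) (s : Fin 2 → ℝ) (o : Z2) (w : ℤ) : pt ρ0 ρ t s o w 2 = t := rfl

theorem gau_nonneg {θ ρ0 ρ1 ρ2 ρ3 : ℝ} (h0 : 0 < ρ0) (h1 : 0 < ρ1) (h2 : 0 < ρ2) (h3 : 0 < ρ3) (s : Fin 2 → ℝ) (z : E4) :
    0 ≤ gau θ ρ0 ρ1 ρ2 ρ3 s z := by
  unfold gau; positivity

theorem gau_add {θ ρ0 ρ1 ρ2 ρ3 : ℝ} (h0 : 0 < ρ0) (h1 : 0 < ρ1) (h2 : 0 < ρ2) (h3 : 0 < ρ3) (s : Fin 2 → ℝ) (y z : E4) :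
    gau θ ρ0 ρ1 ρ2 ρ3 s (y + z) ≤ gau θ ρ0 ρ1 ρ2 ρ3 s y + gau θ ρ0 ρ1 ρ2 ρ3 s z := by
  unfold gau
  rw [dv_add, fw_add, fn_add, nl_add]
  have b0 : |nl s y + nl s z| / ρ0 ≤ |nl s y| / ρ0 + |nl s z| / ρ0 := by
    rw [← add_div]; exact div_le_div_of_nonneg_right (abs_add_le _ _) h0.le
  have b1 : |fw θ (dv s y) + fw θ (dv s z)| / ρ1 ≤ |fw θ (dv s y)| / ρ1 + |fw θ (dv s z)| / ρ1 := by
    rw [← add_div]; exact div_le_div_of_nonneg_right (abs_add_le _ _) h1.le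
  have b2 : |fn θ (dv s y) + fn θ (dv s z)| / ρ2 ≤ |fn θ (dv s y)| / ρ2 + |fn θ (dv s z)| / ρ2 := by
    rw [← add_div]; exact div_le_div_of_nonneg_right (abs_add_le _ _) h2.le
  have b3 : |(y + z) 2| / ρ3 ≤ |y 2| / ρ3 + |z 2| / ρ3 := by
    rw [← add_div]; exact div_le_div_of_nonneg_right (abs_add_le _ _) h3.le
  linarith

theorem gau_neg (θ ρ0 ρ1 ρ2 ρ3 : ℝ) (s : Fin 2 → ℝ) (z : E4) : gau θ ρ0 ρ1 ρ2 ρ3 s (-z) = gau θ ρ0 ρ1 ρ2 ρ3 s z := by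
  unfold gau
  rw [dv_neg, fw_neg, fn_neg, nl_neg, abs_neg, abs_neg, abs_neg]
  have : (-z) 2 = -(z 2) := rfl
  rw [this, abs_neg]

theorem gau_sub_comm (θ ρ0 ρ1 ρ2 ρ3 : ℝ) (s : Fin 2 → ℝ) (z w : E4) :
    gau θ ρ0 ρ1 ρ2 ρ3 s (z - w) = gau θ ρ0 ρ1 ρ2 ρ3 s (w - z) := by
  rw [← gau_neg _ _ _ _ _ _ (z - w), neg_sub]

theorem gau_mono {θ ρ0 ρ1 ρ2 ρ3 R0 R1 R2 R3 : ℝ} (h0 : 0 < ρ0) (h1 : 0 < ρ1) (h2 : 0 < ρ2) (h3 : 0 < ρ3) (k0 : ρ0 ≤ R0)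
    (k1 : ρ1 ≤ R1) (k2 : ρ2 ≤ R2) (k3 : ρ3 ≤ R3) (s : Fin 2 → ℝ) (z : E4) : gau θ R0 R1 R2 R3 s z ≤ gau θ ρ0 ρ1 ρ2 ρ3 s z := by
  unfold gau
  gcongr

/-- Peetre -/
theorem peetre {θ ρ0 ρ1 ρ2 ρ3 : ℝ} (h0 : 0 < ρ0) (h1 : 0 < ρ1) (h2 : 0 < ρ2) (h3 : 0 < ρ3) (s : Fin 2 → ℝ) (x y b : E4) :
    1 + gau θ ρ0 ρ1 ρ2 ρ3 s (y - b) ≤ (1 + gau θ ρ0 ρ1 ρ2 ρ3 s (x - b)) * (1 + gau θ ρ0 ρ1 ρ2 ρ3 s (x - y)) := by
  have e : gau θ ρ0 ρ1 ρ2 ρ3 s (y - b) ≤ gau θ ρ0 ρ1 ρ2 ρ3 s (y - x) + gau θ ρ0 ρ1 ρ2 ρ3 s (x - b) := by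
    have := gau_add (θ := θ) h0 h1 h2 h3 s (y - x) (x - b)
    rwa [sub_add_sub_cancel] at this
  rw [gau_sub_comm _ _ _ _ _ _ y x] at e
  have a := gau_nonneg (θ := θ) h0 h1 h2 h3 s (x - b)
  have b' := gau_nonneg (θ := θ) h0 h1 h2 h3 s (x - y)
  nlinarith [mul_nonneg a b']

theorem continuous_gau (θ ρ0 ρ1 ρ2 ρ3 : ℝ) (s : Fin 2 → ℝ) : Continuous (gau θ ρ0 ρ1 ρ2 ρ3 s) := by
  unfold gau fw fn dv nl
  simp only [Matrix.cons_val_zero, Matrix.cons_val_one]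
  fun_prop

theorem measurable_wg (M : ℕ) (θ ρ0 ρ1 ρ2 ρ3 : ℝ) (s : Fin 2 → ℝ) : Measurable (wg M θ ρ0 ρ1 ρ2 ρ3 s) := by
  unfold wg
  have := (continuous_gau θ ρ0 ρ1 ρ2 ρ3 s).measurable
  fun_prop

theorem measurable_wg_sub (M : ℕ) (θ ρ0 ρ1 ρ2 ρ3 : ℝ) (s : Fin 2 → ℝ) (p : E4) :
    Measurable (fun z => wg M θ ρ0 ρ1 ρ2 ρ3 s (z - p)) := (measurable_wg M θ ρ0 ρ1 ρ2 ρ3 s).comp (measurable_id.sub_const p)

theorem wg_ne_top (M : ℕ) (θ ρ0 ρ1 ρ2 ρ3 : ℝ) (s : Fin 2 → ℝ) (z : E4) : wg M θ ρ0 ρ1 ρ2 ρ3 s z ≠ ⊤ := by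
  unfold wg; exact ENNReal.ofReal_ne_top

theorem wg_le_one {θ ρ0 ρ1 ρ2 ρ3 : ℝ} (h0 : 0 < ρ0) (h1 : 0 < ρ1) (h2 : 0 < ρ2) (h3 : 0 < ρ3) (M : ℕ) (s : Fin 2 → ℝ) (z : E4) :
    wg M θ ρ0 ρ1 ρ2 ρ3 s z ≤ 1 := by
  unfold wg
  rw [← ENNReal.ofReal_one]
  refine ENNReal.ofReal_le_ofReal (inv_le_one_of_one_le₀ (one_le_pow₀ ?_))
  linarith [gau_nonneg (θ := θ) h0 h1 h2 h3 s z]

/-- weights decrease with the exponent -/
theorem wg_anti {M M' : ℕ} (h : M ≤ M') {θ ρ0 ρ1 ρ2 ρ3 : ℝ} (h0 : 0 < ρ0) (h1 : 0 < ρ1) (h2 : 0 < ρ2) (h3 : 0 < ρ3)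
    (s : Fin 2 → ℝ) (z : E4) : wg M' θ ρ0 ρ1 ρ2 ρ3 s z ≤ wg M θ ρ0 ρ1 ρ2 ρ3 s z := by
  unfold wg
  have hg := gau_nonneg (θ := θ) h0 h1 h2 h3 s z
  refine ENNReal.ofReal_le_ofReal (inv_anti₀ (by positivity) (pow_le_pow_right₀ (by linarith) h))

/-- **product of weights**: if the gauge of the plank (centre `b`) is at most `C1 (1 + gauge of the box)` (centre `p`) -/
theorem wg_mul_le (M L : ℕ) {C1 : ℝ} (hC1 : 1 ≤ C1) {θ ρ0 ρ1 ρ2 ρ3 θ2 R0 R1 R2 R3 : ℝ} (h0 : 0 < ρ0) (h1 : 0 < ρ1) (h2 : 0 < ρ2)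
    (h3 : 0 < ρ3) (H0 : 0 < R0) (H1 : 0 < R1) (H2 : 0 < R2) (H3 : 0 < R3) (s s' : Fin 2 → ℝ) (b p : E4)
    (hg : ∀ x, gau θ ρ0 ρ1 ρ2 ρ3 s' (x - b) ≤ C1 * (1 + gau θ2 R0 R1 R2 R3 s (x - p))) (x y : E4) :
    wg M θ ρ0 ρ1 ρ2 ρ3 s' (x - y) * wg (M + L) θ2 R0 R1 R2 R3 s (x - p) ≤
      ENNReal.ofReal ((2 * C1) ^ M) * (wg M θ ρ0 ρ1 ρ2 ρ3 s' (y - b) * wg L θ2 R0 R1 R2 R3 s (x - p)) := by
  unfold wg
  have g1 := gau_nonneg (θ := θ) h0 h1 h2 h3 s' (x - y)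
  have g2 := gau_nonneg (θ := θ) h0 h1 h2 h3 s' (y - b)
  have g3 := gau_nonneg (θ := θ) h0 h1 h2 h3 s' (x - b)
  have g4 := gau_nonneg (θ := θ2) H0 H1 H2 H3 s (x - p)
  have g5 := hg x
  have tri : gau θ ρ0 ρ1 ρ2 ρ3 s' (y - b) ≤ gau θ ρ0 ρ1 ρ2 ρ3 s' (x - y) + gau θ ρ0 ρ1 ρ2 ρ3 s' (x - b) := by
    have e : y - b = -(x - y) + (x - b) := by abel
    rw [e]
    refine (gau_add h0 h1 h2 h3 s' _ _).trans (le_of_eq ?_)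
    rw [gau_neg]
  set a := gau θ ρ0 ρ1 ρ2 ρ3 s' (x - y)
  set c := gau θ ρ0 ρ1 ρ2 ρ3 s' (y - b)
  set d := gau θ ρ0 ρ1 ρ2 ρ3 s' (x - b)
  set e := gau θ2 R0 R1 R2 R3 s (x - p)
  rw [← ENNReal.ofReal_mul (by positivity), ← ENNReal.ofReal_mul (by positivity), ← ENNReal.ofReal_mul (by positivity)]
  apply ENNReal.ofReal_le_ofReal
  have k1 : 1 + c ≤ (1 + a) * (2 * C1 * (1 + e)) := by
    have : 1 + c ≤ (1 + a) * (1 + d) := by nlinarith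
    refine this.trans ?_
    gcongr
    nlinarith
  have k2 : (1 + c) ^ M ≤ (1 + a) ^ M * ((2 * C1) ^ M * (1 + e) ^ M) := by
    calc (1 + c) ^ M ≤ ((1 + a) * (2 * C1 * (1 + e))) ^ M := by gcongr
      _ = _ := by rw [mul_pow, mul_pow]
  rw [← mul_inv, ← mul_inv, ← div_eq_mul_inv, le_div_iff₀ (by positivity), inv_mul_le_iff₀ (by positivity)]
  calc (1 + c) ^ M * (1 + e) ^ L ≤ ((1 + a) ^ M * ((2 * C1) ^ M * (1 + e) ^ M)) * (1 + e) ^ L := by gcongr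
    _ = _ := by rw [pow_add]; ring

theorem continuous_inv {g : E4 → ℂ} (hg : Integrable g) : Continuous (𝓕⁻ g) := by
  have h : 𝓕⁻ g = fun x => 𝓕 g (-x) := by
    ext x
    exact Real.fourierInv_eq_fourier_neg _ _
  rw [h]
  exact (VectorFourier.fourierIntegral_continuous Real.continuous_fourierChar
    (by exact continuous_inner) hg).comp continuous_neg

/-- **transfer**: from a big box to a plank, for a function which is locally constant on the planks -/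
theorem transfer (hREP : StREP) (hWI : StWI) (M : ℕ) (c C1 : ℝ) (hc : 0 < c) (hC1 : 1 ≤ C1) : ∃ C : ℝ, 0 ≤ C ∧
    ∀ (θ ρ0 ρ1 ρ2 ρ3 θ2 R0 R1 R2 R3 : ℝ) (s s' : Fin 2 → ℝ) (b p ξ0 : E4) (g : E4 → ℂ), 0 < ρ0 → 0 < ρ1 → 0 < ρ2 → 0 < ρ3 →
      0 < R0 → 0 < R1 → 0 < R2 → 0 < R3 → Integrable g → (∀ ξ, g ξ ≠ 0 → Dual c θ ρ0 ρ1 ρ2 ρ3 s' (ξ - ξ0)) →
      (∀ x, gau θ ρ0 ρ1 ρ2 ρ3 s' (x - b) ≤ C1 * (1 + gau θ2 R0 R1 R2 R3 s (x - p))) →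
      ∫⁻ x, ‖𝓕⁻ g x‖ₑ ^ 2 * wg (M + 5) θ2 R0 R1 R2 R3 s (x - p) ≤
        ENNReal.ofReal (C * (R0 * R1 * R2 * R3) * (ρ0 * ρ1 * ρ2 * ρ3)⁻¹) * ∫⁻ y, ‖𝓕⁻ g y‖ₑ ^ 2 * wg M θ ρ0 ρ1 ρ2 ρ3 s' (y - b) := by
  obtain ⟨C2, hC2, hR⟩ := hREP M c hc
  obtain ⟨C3, hC3, hW⟩ := hWI
  refine ⟨C2 * ((2 * C1) ^ M * C3), by positivity, ?_⟩
  intro θ ρ0 ρ1 ρ2 ρ3 θ2 R0 R1 R2 R3 s s' b p ξ0 g h0 h1 h2 h3 H0 H1 H2 H3 hg hs hgau
  have hm : Measurable (fun y => ‖𝓕⁻ g y‖ₑ ^ 2) := ((continuous_inv hg).measurable.enorm).pow_const 2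
  have mw := measurable_wg M θ ρ0 ρ1 ρ2 ρ3 s'
  have mW := measurable_wg_sub (M + 5) θ2 R0 R1 R2 R3 s p
  have mW5 := measurable_wg_sub 5 θ2 R0 R1 R2 R3 s p
  calc ∫⁻ x, ‖𝓕⁻ g x‖ₑ ^ 2 * wg (M + 5) θ2 R0 R1 R2 R3 s (x - p)
      ≤ ∫⁻ x, (ENNReal.ofReal (C2 * (ρ0 * ρ1 * ρ2 * ρ3)⁻¹) * ∫⁻ y, ‖𝓕⁻ g y‖ₑ ^ 2 * wg M θ ρ0 ρ1 ρ2 ρ3 s' (x - y)) *
          wg (M + 5) θ2 R0 R1 R2 R3 s (x - p) := by
        refine lintegral_mono fun x => ?_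
        exact mul_le_mul' (hR θ ρ0 ρ1 ρ2 ρ3 s' ξ0 g h0 h1 h2 h3 hg hs x) le_rfl
    _ = ∫⁻ x, ∫⁻ y, ENNReal.ofReal (C2 * (ρ0 * ρ1 * ρ2 * ρ3)⁻¹) * (‖𝓕⁻ g y‖ₑ ^ 2 *
          (wg M θ ρ0 ρ1 ρ2 ρ3 s' (x - y) * wg (M + 5) θ2 R0 R1 R2 R3 s (x - p))) := by
        refine lintegral_congr fun x => ?_
        rw [lintegral_const_mul' _ _ ENNReal.ofReal_ne_top, mul_assoc, mul_comm (∫⁻ y, _) (wg _ _ _ _ _ _ _ _),
          ← lintegral_const_mul' _ _ (wg_ne_top _ _ _ _ _ _ _ _)]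
        congr 1
        refine lintegral_congr fun y => ?_
        ring
    _ ≤ ∫⁻ x, ∫⁻ y, ENNReal.ofReal (C2 * (ρ0 * ρ1 * ρ2 * ρ3)⁻¹) * (‖𝓕⁻ g y‖ₑ ^ 2 *
          (ENNReal.ofReal ((2 * C1) ^ M) * (wg M θ ρ0 ρ1 ρ2 ρ3 s' (y - b) * wg 5 θ2 R0 R1 R2 R3 s (x - p)))) := by
        refine lintegral_mono fun x => lintegral_mono fun y => ?_
        exact mul_le_mul' le_rfl (mul_le_mul' le_rfl (wg_mul_le M 5 hC1 h0 h1 h2 h3 H0 H1 H2 H3 s s' b p hgau x y))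
    _ = ∫⁻ x, (∫⁻ y, ENNReal.ofReal (C2 * (ρ0 * ρ1 * ρ2 * ρ3)⁻¹) * ENNReal.ofReal ((2 * C1) ^ M) * (‖𝓕⁻ g y‖ₑ ^ 2 *
          wg M θ ρ0 ρ1 ρ2 ρ3 s' (y - b))) * wg 5 θ2 R0 R1 R2 R3 s (x - p) := by
        refine lintegral_congr fun x => ?_
        rw [mul_comm (∫⁻ y, _) (wg _ _ _ _ _ _ _ _), ← lintegral_const_mul' _ _ (wg_ne_top _ _ _ _ _ _ _ _)]
        refine lintegral_congr fun y => ?_
        ring
    _ = (ENNReal.ofReal (C2 * (ρ0 * ρ1 * ρ2 * ρ3)⁻¹) * ENNReal.ofReal ((2 * C1) ^ M) * ∫⁻ y, ‖𝓕⁻ g y‖ₑ ^ 2 *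
          wg M θ ρ0 ρ1 ρ2 ρ3 s' (y - b)) * ∫⁻ x, wg 5 θ2 R0 R1 R2 R3 s (x - p) := by
        rw [lintegral_const_mul _ mW5, lintegral_const_mul']
        exact ENNReal.mul_ne_top ENNReal.ofReal_ne_top ENNReal.ofReal_ne_top
    _ ≤ (ENNReal.ofReal (C2 * (ρ0 * ρ1 * ρ2 * ρ3)⁻¹) * ENNReal.ofReal ((2 * C1) ^ M) * ∫⁻ y, ‖𝓕⁻ g y‖ₑ ^ 2 *
          wg M θ ρ0 ρ1 ρ2 ρ3 s' (y - b)) * ENNReal.ofReal (C3 * (R0 * R1 * R2 * R3)) := by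
        gcongr
        exact hW 5 θ2 R0 R1 R2 R3 s p le_rfl H0 H1 H2 H3
    _ = _ := by
        have e : C2 * ((2 * C1) ^ M * C3) * (R0 * R1 * R2 * R3) * (ρ0 * ρ1 * ρ2 * ρ3)⁻¹ =
          (C2 * (ρ0 * ρ1 * ρ2 * ρ3)⁻¹) * (2 * C1) ^ M * (C3 * (R0 * R1 * R2 * R3)) := by ring
        have q1 : 0 ≤ C2 * (ρ0 * ρ1 * ρ2 * ρ3)⁻¹ := by positivity
        have q2 : 0 ≤ (2 * C1) ^ M := by positivity
        rw [e, ENNReal.ofReal_mul (mul_nonneg q1 q2), ENNReal.ofReal_mul q1]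
        ring

/-! ### WG -/

theorem stWG : StWG := by
  intro c hc
  refine ⟨4 * c + 4, by linarith, ?_⟩
  intro θ θ' ρ0 ρ1 ρ2 ρ3 R0 R1 R2 R3 s s' h0 h1 h2 h3 hR h33 h00 hs1 hs2 hn1 hn2 hq z
  have hR0 : 0 < R0 := by linarith
  have hR1 : 0 < R1 := by rcases hR with ⟨_, h, _⟩ | ⟨⟨h, _⟩, _⟩ <;> linarith
  have hR2 : 0 < R2 := by rcases hR with ⟨_, _, h⟩ | ⟨⟨_, h⟩, _⟩ <;> linarith
  have hR3 : 0 < R3 := by linarith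
  have ew : fw θ (dv s z) = fw θ (dv s' z) - z 2 * fw θ (fun i => s i - s' i) := by
    rw [dv_chg s s' z, fw_add]; unfold fw; ring
  have en : fn θ (dv s z) = fn θ (dv s' z) - z 2 * fn θ (fun i => s i - s' i) := by
    rw [dv_chg s s' z, fn_add]; unfold fn; ring
  have a1 : |z 2| * |fw θ (fun i => s i - s' i)| / R1 ≤ c * (|z 2| / ρ3) := by
    rw [div_le_iff₀ hR1]
    have : |fw θ (fun i => s i - s' i)| ≤ c * R1 / ρ3 := by rw [le_div_iff₀ h3]; exact hs1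
    calc |z 2| * |fw θ (fun i => s i - s' i)| ≤ |z 2| * (c * R1 / ρ3) := mul_le_mul_of_nonneg_left this (abs_nonneg _)
      _ = c * (|z 2| / ρ3) * R1 := by ring
  have a2 : |z 2| * |fn θ (fun i => s i - s' i)| / R2 ≤ c * (|z 2| / ρ3) := by
    rw [div_le_iff₀ hR2]
    have : |fn θ (fun i => s i - s' i)| ≤ c * R2 / ρ3 := by rw [le_div_iff₀ h3]; exact hs2
    calc |z 2| * |fn θ (fun i => s i - s' i)| ≤ |z 2| * (c * R2 / ρ3) := mul_le_mul_of_nonneg_left this (abs_nonneg _)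
      _ = c * (|z 2| / ρ3) * R2 := by ring
  have a3 : |z 2| / R3 ≤ |z 2| / ρ3 := div_le_div_of_nonneg_left (abs_nonneg _) h3 h33
  have b1 : |fw θ (dv s z)| / R1 ≤ |fw θ (dv s' z)| / R1 + |z 2| * |fw θ (fun i => s i - s' i)| / R1 := by
    rw [← add_div, ew, ← abs_mul]
    exact div_le_div_of_nonneg_right (abs_sub _ _) hR1.le
  have b2 : |fn θ (dv s z)| / R2 ≤ |fn θ (dv s' z)| / R2 + |z 2| * |fn θ (fun i => s i - s' i)| / R2 := by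
    rw [← add_div, en, ← abs_mul]
    exact div_le_div_of_nonneg_right (abs_sub _ _) hR2.le
  have c12 : |fw θ (dv s' z)| / R1 ≤ |fw θ' (dv s' z)| / ρ1 + |fn θ' (dv s' z)| / ρ2 ∧
      |fn θ (dv s' z)| / R2 ≤ |fw θ' (dv s' z)| / ρ1 + |fn θ' (dv s' z)| / ρ2 := by
    rcases hR with ⟨rfl, ha, hb⟩ | ⟨⟨ha, hb⟩, ha', hb'⟩
    · constructor
      · have := div_le_div_of_nonneg_left (abs_nonneg (fw θ' (dv s' z))) h1 ha
        have h4 : 0 ≤ |fn θ' (dv s' z)| / ρ2 := by positivity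
        linarith
      · have := div_le_div_of_nonneg_left (abs_nonneg (fn θ' (dv s' z))) h2 hb
        have h4 : 0 ≤ |fw θ' (dv s' z)| / ρ1 := by positivity
        linarith
    · constructor
      · have e1 := div_le_div_of_nonneg_left (abs_nonneg (fw θ' (dv s' z))) h1 ha
        have e2 := div_le_div_of_nonneg_left (abs_nonneg (fn θ' (dv s' z))) h2 ha'
        have e3 := div_le_div_of_nonneg_right (fw_chg θ θ' (dv s' z)) hR1.le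
        rw [add_div] at e3
        linarith
      · have e1 := div_le_div_of_nonneg_left (abs_nonneg (fw θ' (dv s' z))) h1 hb
        have e2 := div_le_div_of_nonneg_left (abs_nonneg (fn θ' (dv s' z))) h2 hb'
        have e3 := div_le_div_of_nonneg_right (fn_chg θ θ' (dv s' z)) hR2.le
        rw [add_div] at e3
        linarith
  -- null direction
  have d0 : |nl s z| ≤ |nl s' z| + (|fw θ' (fun i => s i - s' i)| * |fw θ' (dv s' z)| + |fn θ' (fun i => s i - s' i)| * |fn θ' (dv s' z)|) +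
      ((s 0 - s' 0) ^ 2 + (s 1 - s' 1) ^ 2) / 2 * |z 2| := by
    rw [nl_chg s s' z]
    rw [show (s 0 - s' 0) * dv s' z 0 + (s 1 - s' 1) * dv s' z 1 = _ from dot_frame θ' (fun i => s i - s' i) (dv s' z)]
    refine (abs_add_le _ _).trans (add_le_add ((abs_sub _ _).trans (add_le_add le_rfl ?_)) ?_)
    · refine (abs_add_le _ _).trans (le_of_eq ?_)
      rw [abs_mul, abs_mul]
    · rw [abs_mul, abs_of_nonneg (by positivity)]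
  have f1 : |fw θ' (fun i => s i - s' i)| * |fw θ' (dv s' z)| / R0 ≤ c * (|fw θ' (dv s' z)| / ρ1) := by
    rw [div_le_iff₀ hR0]
    have : |fw θ' (fun i => s i - s' i)| ≤ c * R0 / ρ1 := by rw [le_div_iff₀ h1]; exact hn1
    calc |fw θ' (fun i => s i - s' i)| * |fw θ' (dv s' z)| ≤ (c * R0 / ρ1) * |fw θ' (dv s' z)| :=
          mul_le_mul_of_nonneg_right this (abs_nonneg _)
      _ = c * (|fw θ' (dv s' z)| / ρ1) * R0 := by ring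
  have f2 : |fn θ' (fun i => s i - s' i)| * |fn θ' (dv s' z)| / R0 ≤ c * (|fn θ' (dv s' z)| / ρ2) := by
    rw [div_le_iff₀ hR0]
    have : |fn θ' (fun i => s i - s' i)| ≤ c * R0 / ρ2 := by rw [le_div_iff₀ h2]; exact hn2
    calc |fn θ' (fun i => s i - s' i)| * |fn θ' (dv s' z)| ≤ (c * R0 / ρ2) * |fn θ' (dv s' z)| :=
          mul_le_mul_of_nonneg_right this (abs_nonneg _)
      _ = c * (|fn θ' (dv s' z)| / ρ2) * R0 := by ring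
  have f3 : ((s 0 - s' 0) ^ 2 + (s 1 - s' 1) ^ 2) / 2 * |z 2| / R0 ≤ c * (|z 2| / ρ3) := by
    rw [div_le_iff₀ hR0]
    have hq' : (s 0 - s' 0) ^ 2 + (s 1 - s' 1) ^ 2 ≤ c * R0 / ρ3 := by rw [le_div_iff₀ h3]; exact hq
    have hpos : 0 ≤ (s 0 - s' 0) ^ 2 + (s 1 - s' 1) ^ 2 := by positivity
    calc ((s 0 - s' 0) ^ 2 + (s 1 - s' 1) ^ 2) / 2 * |z 2| ≤ (c * R0 / ρ3) * |z 2| :=
          mul_le_mul_of_nonneg_right (by linarith) (abs_nonneg _)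
      _ = c * (|z 2| / ρ3) * R0 := by ring
  have f4 : |nl s' z| / R0 ≤ |nl s' z| / ρ0 := div_le_div_of_nonneg_left (abs_nonneg _) h0 h00
  have f5 := div_le_div_of_nonneg_right d0 hR0.le
  rw [add_div, add_div, add_div] at f5
  have p0 : 0 ≤ |nl s' z| / ρ0 := by positivity
  have p1 : 0 ≤ |fw θ' (dv s' z)| / ρ1 := by positivity
  have p2 : 0 ≤ |fn θ' (dv s' z)| / ρ2 := by positivity
  have p3 : 0 ≤ |z 2| / ρ3 := by positivity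
  unfold gau
  nlinarith [c12.1, c12.2, mul_nonneg (by linarith : (0:ℝ) ≤ c) p0, mul_nonneg (by linarith : (0:ℝ) ≤ c) p1,
    mul_nonneg (by linarith : (0:ℝ) ≤ c) p2, mul_nonneg (by linarith : (0:ℝ) ≤ c) p3]

end Vale.Agent.P106.AN
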